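import Vale.Agent.P213.Collage.Zone

/-!
# P213, collages: functors into `Zone`, and middle parts of pushouts
-/

open CategoryTheory Limits

noncomputable section

namespace Vale.Agent.P213

variable {X X' Y Y' : OmegaCat}

theorem Mid.congr {π π' : X ⟶ Lev} (h : π = π') {x : X.Cell} (hx : Mid π x) : Mid π' x := h ▸ hx

theorem lev_src (π : X ⟶ Lev) (x : X.Cell) :
    (π.toFun (X.src 0 x)).1 = ((π.toFun x).1.1, (π.toFun x).1.1) := by
  rw [π.map_src]; rfl

theorem lev_tgt (π : X ⟶ Lev) (x : X.Cell) :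
    (π.toFun (X.tgt 0 x)).1 = ((π.toFun x).1.2, (π.toFun x).1.2) := by
  rw [π.map_tgt]; rfl

theorem lev_src_succ (π : X ⟶ Lev) (i : ℕ) (x : X.Cell) :
    π.toFun (X.src (i + 1) x) = π.toFun x := by
  rw [π.map_src]; rfl

theorem lev_tgt_succ (π : X ⟶ Lev) (i : ℕ) (x : X.Cell) :
    π.toFun (X.tgt (i + 1) x) = π.toFun x := by
  rw [π.map_tgt]; rfl

/-- A functor on the middle part of a graded omega-category. -/
structure PartHom {X : OmegaCat} (π : X ⟶ Lev) (Y : OmegaCat) where
  toFun : ∀ x, Mid π x → Y.Cell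
  map_src : ∀ i x (h : Mid π x), toFun (X.src i x) (h.src i) = Y.src i (toFun x h)
  map_tgt : ∀ i x (h : Mid π x), toFun (X.tgt i x) (h.tgt i) = Y.tgt i (toFun x h)
  map_comp : ∀ i x y (hx : Mid π x) (hy : Mid π y) (h : X.tgt i x = X.src i y),
    toFun (X.comp i x y) (hx.comp hy i h) = Y.comp i (toFun x hx) (toFun y hy)

/-- The grading of `Zone Y`. -/
def zdeg (Y : OmegaCat) : Zone Y ⟶ Lev where
  toFun z := match z with
    | .bot => ⟨(0, 0), le_rfl⟩
    | .top => ⟨(2, 2), le_rfl⟩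
    | .across => ⟨(0, 2), by decide⟩
    | .up _ => ⟨(0, 1), by decide⟩
    | .dn _ => ⟨(1, 2), by decide⟩
    | .cell _ => ⟨(1, 1), le_rfl⟩
  map_src i z := by rcases i with _ | i <;> rcases z <;> rfl
  map_tgt i z := by rcases i with _ | i <;> rcases z <;> rfl
  map_comp i z w h := by
    rcases i with _ | i <;> rcases z <;> rcases w <;>
      simp [Zone, ZCell.src, ZCell.tgt] at h <;>
      simp [Zone, ZCell.comp, Lev, ordCat, OrdCat.comp]

/-- The object at which the middle part is entered. -/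
def PartHom.upObj {π : X ⟶ Lev} (φ : PartHom π Y) (x : X.Cell)
    (h : (π.toFun x).1.2 = 1) : Obj0 Y :=
  have ht : Mid π (X.tgt 0 x) := by unfold Mid; rw [lev_tgt, h]
  ⟨φ.toFun (X.tgt 0 x) ht, by
    rw [← φ.map_src 0 (X.tgt 0 x) ht]
    congr 1
    exact X.src_tgt 0 x⟩

/-- The object at which the middle part is left. -/
def PartHom.dnObj {π : X ⟶ Lev} (φ : PartHom π Y) (x : X.Cell)
    (h : (π.toFun x).1.1 = 1) : Obj0 Y :=
  have hs : Mid π (X.src 0 x) := by unfold Mid; rw [lev_src, h]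
  ⟨φ.toFun (X.src 0 x) hs, by
    rw [← φ.map_src 0 (X.src 0 x) hs]
    congr 1
    exact X.src_src 0 x⟩

theorem fin3_cases (a : Fin 3) : a = 0 ∨ a = 1 ∨ a = 2 := by omega

open Classical in
/-- The value of the extension to `Zone Y`. -/
def PartHom.ext0 {π : X ⟶ Lev} (φ : PartHom π Y) (x : X.Cell) : ZCell Y :=
  if hm : Mid π x then .cell (φ.toFun x hm)
  else if (π.toFun x).1.1 = 2 then .top
  else if (π.toFun x).1.2 = 0 then .bot
  else if h : (π.toFun x).1.2 = 1 then .up (φ.upObj x h)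
  else if h : (π.toFun x).1.1 = 1 then .dn (φ.dnObj x h)
  else .across

section cases

variable {π : X ⟶ Lev} (φ : PartHom π Y) (x : X.Cell)

theorem PartHom.ext0_bot (h : (π.toFun x).1 = (0, 0)) : φ.ext0 x = .bot := by
  simp [PartHom.ext0, Mid, h]

theorem PartHom.ext0_top (h : (π.toFun x).1 = (2, 2)) : φ.ext0 x = .top := by
  simp [PartHom.ext0, Mid, h]

theorem PartHom.ext0_across (h : (π.toFun x).1 = (0, 2)) : φ.ext0 x = .across := by
  simp [PartHom.ext0, Mid, h]

theorem PartHom.ext0_up (h : (π.toFun x).1 = (0, 1)) :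
    φ.ext0 x = .up (φ.upObj x (by rw [h])) := by
  simp [PartHom.ext0, Mid, h]

theorem PartHom.ext0_dn (h : (π.toFun x).1 = (1, 2)) :
    φ.ext0 x = .dn (φ.dnObj x (by rw [h])) := by
  simp [PartHom.ext0, Mid, h]

theorem PartHom.ext0_cell (h : Mid π x) : φ.ext0 x = .cell (φ.toFun x h) := by
  simp [PartHom.ext0, h]

theorem lev_cases : (π.toFun x).1 = (0, 0) ∨ (π.toFun x).1 = (2, 2) ∨ (π.toFun x).1 = (0, 2) ∨
    (π.toFun x).1 = (0, 1) ∨ (π.toFun x).1 = (1, 2) ∨ (π.toFun x).1 = (1, 1) := by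
  have hle : (π.toFun x).1.1 ≤ (π.toFun x).1.2 := (π.toFun x).2
  revert hle
  generalize (π.toFun x).1 = p
  revert p
  decide

theorem PartHom.toFun_congr {x y : X.Cell} (e : x = y) (hx : Mid π x) :
    φ.toFun x hx = φ.toFun y (e ▸ hx) := by subst e; rfl

end cases

/-- The functor to `Zone Y` of a functor on the middle part. -/
def PartHom.hat {π : X ⟶ Lev} (φ : PartHom π Y) : X ⟶ Zone Y where
  toFun := φ.ext0
  map_src i x := by
    show _ = ZCell.src i (φ.ext0 x)
    rcases i with _ | i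
    · have hs := lev_src π x
      rcases lev_cases (π := π) x with h | h | h | h | h | h
      · rw [φ.ext0_bot x h, φ.ext0_bot _ (hs.trans (by rw [h]))]; rfl
      · rw [φ.ext0_top x h, φ.ext0_top _ (hs.trans (by rw [h]))]; rfl
      · rw [φ.ext0_across x h, φ.ext0_bot _ (hs.trans (by rw [h]))]; rfl
      · rw [φ.ext0_up x h, φ.ext0_bot _ (hs.trans (by rw [h]))]; rfl
      · rw [φ.ext0_dn x h, φ.ext0_cell _ (hs.trans (by rw [h]))]; rfl
      · rw [φ.ext0_cell x h, φ.ext0_cell _ (Mid.src h 0), φ.map_src 0 x h]; rfl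
    · have hs := congrArg Subtype.val (lev_src_succ π i x)
      rcases lev_cases (π := π) x with h | h | h | h | h | h
      · rw [φ.ext0_bot x h, φ.ext0_bot _ (hs.trans h)]; rfl
      · rw [φ.ext0_top x h, φ.ext0_top _ (hs.trans h)]; rfl
      · rw [φ.ext0_across x h, φ.ext0_across _ (hs.trans h)]; rfl
      · rw [φ.ext0_up x h, φ.ext0_up _ (hs.trans h)]
        refine congrArg ZCell.up (Subtype.ext (φ.toFun_congr ?_ _))
        exact X.tgt_src_lo (Nat.succ_pos i) x
      · rw [φ.ext0_dn x h, φ.ext0_dn _ (hs.trans h)]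
        refine congrArg ZCell.dn (Subtype.ext (φ.toFun_congr ?_ _))
        exact X.src_src_lo (Nat.succ_pos i) x
      · rw [φ.ext0_cell x h, φ.ext0_cell _ (Mid.src h _), φ.map_src _ x h]; rfl
  map_tgt i x := by
    show _ = ZCell.tgt i (φ.ext0 x)
    rcases i with _ | i
    · have hs := lev_tgt π x
      rcases lev_cases (π := π) x with h | h | h | h | h | h
      · rw [φ.ext0_bot x h, φ.ext0_bot _ (hs.trans (by rw [h]))]; rfl
      · rw [φ.ext0_top x h, φ.ext0_top _ (hs.trans (by rw [h]))]; rfl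
      · rw [φ.ext0_across x h, φ.ext0_top _ (hs.trans (by rw [h]))]; rfl
      · rw [φ.ext0_up x h, φ.ext0_cell _ (hs.trans (by rw [h]))]; rfl
      · rw [φ.ext0_dn x h, φ.ext0_top _ (hs.trans (by rw [h]))]; rfl
      · rw [φ.ext0_cell x h, φ.ext0_cell _ (Mid.tgt h 0), φ.map_tgt 0 x h]; rfl
    · have hs := congrArg Subtype.val (lev_tgt_succ π i x)
      rcases lev_cases (π := π) x with h | h | h | h | h | h
      · rw [φ.ext0_bot x h, φ.ext0_bot _ (hs.trans h)]; rfl
      · rw [φ.ext0_top x h, φ.ext0_top _ (hs.trans h)]; rfl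
      · rw [φ.ext0_across x h, φ.ext0_across _ (hs.trans h)]; rfl
      · rw [φ.ext0_up x h, φ.ext0_up _ (hs.trans h)]
        refine congrArg ZCell.up (Subtype.ext (φ.toFun_congr ?_ _))
        exact X.tgt_tgt_lo (Nat.succ_pos i) x
      · rw [φ.ext0_dn x h, φ.ext0_dn _ (hs.trans h)]
        refine congrArg ZCell.dn (Subtype.ext (φ.toFun_congr ?_ _))
        exact X.src_tgt_lo (Nat.succ_pos i) x
      · rw [φ.ext0_cell x h, φ.ext0_cell _ (Mid.tgt h _), φ.map_tgt _ x h]; rfl
  map_comp i x y hxy := by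
    show _ = ZCell.comp i (φ.ext0 x) (φ.ext0 y)
    have hc : π.toFun (X.comp i x y) = OrdCat.comp i (π.toFun x) (π.toFun y) :=
      π.map_comp i x y hxy
    have hm : OrdCat.tgt i (π.toFun x) = OrdCat.src i (π.toFun y) := by
      have := congrArg π.toFun hxy
      rwa [π.map_tgt, π.map_src] at this
    rcases i with _ | i
    · have e : (π.toFun x).1.2 = (π.toFun y).1.1 := OrdCat.eq_of hm
      have hc' : (π.toFun (X.comp 0 x y)).1 = ((π.toFun x).1.1, (π.toFun y).1.2) :=
        (congrArg Subtype.val hc).trans (OrdCat.comp_zero e)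
      rcases lev_cases (π := π) x with h | h | h | h | h | h <;>
        rcases lev_cases (π := π) y with k | k | k | k | k | k <;>
        rw [h, k] at hc' <;>
        simp [h, k] at e
      · rw [φ.ext0_bot x h, φ.ext0_bot y k, φ.ext0_bot _ hc']; rfl
      · rw [φ.ext0_bot x h, φ.ext0_across y k, φ.ext0_across _ hc']; rfl
      · rw [φ.ext0_bot x h, φ.ext0_up y k, φ.ext0_up _ hc']
        refine congrArg ZCell.up (Subtype.ext (φ.toFun_congr ?_ _))
        exact X.tgt_comp 0 x y hxy
      · rw [φ.ext0_top x h, φ.ext0_top y k, φ.ext0_top _ hc']; rfl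
      · rw [φ.ext0_across x h, φ.ext0_top y k, φ.ext0_across _ hc']; rfl
      · rw [φ.ext0_up x h, φ.ext0_dn y k, φ.ext0_across _ hc']; rfl
      · rw [φ.ext0_up x h, φ.ext0_cell y k, φ.ext0_up _ hc']
        refine congrArg ZCell.up (Subtype.ext ?_)
        show φ.toFun _ _ = Y.tgt 0 (φ.toFun y k)
        rw [← φ.map_tgt 0 y k]
        exact φ.toFun_congr (X.tgt_comp 0 x y hxy) _
      · rw [φ.ext0_dn x h, φ.ext0_top y k, φ.ext0_dn _ hc']
        refine congrArg ZCell.dn (Subtype.ext (φ.toFun_congr ?_ _))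
        exact X.src_comp 0 x y hxy
      · rw [φ.ext0_cell x h, φ.ext0_dn y k, φ.ext0_dn _ hc']
        refine congrArg ZCell.dn (Subtype.ext ?_)
        show φ.toFun _ _ = Y.src 0 (φ.toFun x h)
        rw [← φ.map_src 0 x h]
        exact φ.toFun_congr (X.src_comp 0 x y hxy) _
      · rw [φ.ext0_cell x h, φ.ext0_cell y k,
          φ.ext0_cell _ (Mid.comp (π := π) h k 0 hxy), φ.map_comp 0 x y h k hxy]
        rfl
    · have e : π.toFun x = π.toFun y := hm
      have hc' : (π.toFun (X.comp (i + 1) x y)).1 = (π.toFun x).1 := congrArg Subtype.val hc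
      have ey : (π.toFun y).1 = (π.toFun x).1 := (congrArg Subtype.val e).symm
      rcases lev_cases (π := π) x with h | h | h | h | h | h
      · rw [φ.ext0_bot x h, φ.ext0_bot y (ey.trans h), φ.ext0_bot _ (hc'.trans h)]; rfl
      · rw [φ.ext0_top x h, φ.ext0_top y (ey.trans h), φ.ext0_top _ (hc'.trans h)]; rfl
      · rw [φ.ext0_across x h, φ.ext0_across y (ey.trans h), φ.ext0_across _ (hc'.trans h)]; rfl
      · rw [φ.ext0_up x h, φ.ext0_up y (ey.trans h), φ.ext0_up _ (hc'.trans h)]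
        refine congrArg ZCell.up (Subtype.ext (φ.toFun_congr ?_ _))
        rw [tgt_comp_lo X (Nat.succ_pos i) hxy, tgt_eq_lo X (Nat.succ_pos i) hxy]
      · rw [φ.ext0_dn x h, φ.ext0_dn y (ey.trans h), φ.ext0_dn _ (hc'.trans h)]
        refine congrArg ZCell.dn (Subtype.ext (φ.toFun_congr ?_ _))
        exact src_comp_lo X (Nat.succ_pos i) hxy
      · rw [φ.ext0_cell x h, φ.ext0_cell y (ey.trans h),
          φ.ext0_cell _ (Mid.comp (π := π) h (ey.trans h) _ hxy),
          φ.map_comp _ x y h (ey.trans h) hxy]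
        rfl

theorem PartHom.hat_zdeg {π : X ⟶ Lev} (φ : PartHom π Y) : φ.hat ≫ zdeg Y = π := by
  refine OmegaCat.Hom.ext (funext fun x => ?_)
  show (zdeg Y).toFun (φ.ext0 x) = π.toFun x
  rcases lev_cases (π := π) x with h | h | h | h | h | h
  · rw [φ.ext0_bot x h]; exact Subtype.ext h.symm
  · rw [φ.ext0_top x h]; exact Subtype.ext h.symm
  · rw [φ.ext0_across x h]; exact Subtype.ext h.symm
  · rw [φ.ext0_up x h]; exact Subtype.ext h.symm
  · rw [φ.ext0_dn x h]; exact Subtype.ext h.symm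
  · rw [φ.ext0_cell x h]; exact Subtype.ext h.symm

/-- Two functors on the middle part with the same values give the same functor. -/
theorem PartHom.hat_congr {π π' : X ⟶ Lev} (e : π = π') (φ : PartHom π Y) (φ' : PartHom π' Y)
    (h : ∀ x (hx : Mid π x), φ.toFun x hx = φ'.toFun x (hx.congr e)) : φ.hat = φ'.hat := by
  subst e
  have : φ = φ' := by
    rcases φ with ⟨f, _, _, _⟩; rcases φ' with ⟨f', _, _, _⟩
    congr; funext x hx; exact h x hx
  rw [this]

/-- Restriction along a functor. -/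
def PartHom.pull {π : X ⟶ Lev} (φ : PartHom π Y) (h : X' ⟶ X) : PartHom (h ≫ π) Y where
  toFun x hx := φ.toFun (h.toFun x) hx
  map_src i x hx := (φ.toFun_congr (h.map_src i x) _).trans (φ.map_src i _ hx)
  map_tgt i x hx := (φ.toFun_congr (h.map_tgt i x) _).trans (φ.map_tgt i _ hx)
  map_comp i x y hx hy e :=
    (φ.toFun_congr (h.map_comp i x y e) _).trans
      (φ.map_comp i _ _ hx hy (by rw [← h.map_tgt, ← h.map_src, e]))

theorem PartHom.pull_hat {π : X ⟶ Lev} (φ : PartHom π Y) (h : X' ⟶ X) :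
    (φ.pull h).hat = h ≫ φ.hat := by
  refine OmegaCat.Hom.ext (funext fun x => ?_)
  show (φ.pull h).ext0 x = φ.ext0 (h.toFun x)
  rcases lev_cases (π := π) (h.toFun x) with k | k | k | k | k | k
  · rw [φ.ext0_bot _ k, (φ.pull h).ext0_bot x k]
  · rw [φ.ext0_top _ k, (φ.pull h).ext0_top x k]
  · rw [φ.ext0_across _ k, (φ.pull h).ext0_across x k]
  · rw [φ.ext0_up _ k, (φ.pull h).ext0_up x k]
    exact congrArg ZCell.up (Subtype.ext (φ.toFun_congr (h.map_tgt 0 x) _))
  · rw [φ.ext0_dn _ k, (φ.pull h).ext0_dn x k]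
    exact congrArg ZCell.dn (Subtype.ext (φ.toFun_congr (h.map_src 0 x) _))
  · rw [φ.ext0_cell _ k, (φ.pull h).ext0_cell x k]
    rfl

/-- A functor composed with a functor on the middle part. -/
def PartHom.postcomp {π : X ⟶ Lev} (φ : PartHom π Y) (u : Y ⟶ Y') : PartHom π Y' where
  toFun x hx := u.toFun (φ.toFun x hx)
  map_src i x hx := by rw [φ.map_src i x hx, u.map_src]
  map_tgt i x hx := by rw [φ.map_tgt i x hx, u.map_tgt]
  map_comp i x y hx hy e := by
    rw [φ.map_comp i x y hx hy e, u.map_comp]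
    rw [← φ.map_tgt i x hx, ← φ.map_src i y hy]
    exact φ.toFun_congr e _

/-- The identity of the middle part. -/
def PartHom.incl {X : OmegaCat} (π : X ⟶ Lev) : PartHom π X where
  toFun x _ := x
  map_src _ _ _ := rfl
  map_tgt _ _ _ := rfl
  map_comp _ _ _ _ _ _ := rfl

theorem mid_zdeg {z : (Zone Y).Cell} (h : Mid (zdeg Y) z) : ∃ y, z = .cell y := by
  rcases z with _ | _ | _ | y | y | y <;> first
    | exact ⟨y, rfl⟩
    | (exfalso; revert h; unfold Mid; simp [zdeg])

/-- The middle part of `Zone Y` is `Y`. -/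
def zval (Y : OmegaCat) : PartHom (zdeg Y) Y where
  toFun z h := (mid_zdeg h).choose
  map_src i z h := by
    obtain ⟨y, rfl⟩ := mid_zdeg h
    have h1 := (mid_zdeg (h.src i)).choose_spec
    have h2 := (mid_zdeg h).choose_spec
    injection h2 with h2
    rw [← h2]
    rcases i with _ | i <;> (injection h1 with h1; exact h1.symm)
  map_tgt i z h := by
    obtain ⟨y, rfl⟩ := mid_zdeg h
    have h1 := (mid_zdeg (h.tgt i)).choose_spec
    have h2 := (mid_zdeg h).choose_spec
    injection h2 with h2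
    rw [← h2]
    rcases i with _ | i <;> (injection h1 with h1; exact h1.symm)
  map_comp i z w h h' e := by
    obtain ⟨y, rfl⟩ := mid_zdeg h
    obtain ⟨y', rfl⟩ := mid_zdeg h'
    have h1 := (mid_zdeg (h.comp h' i e)).choose_spec
    have h2 := (mid_zdeg h).choose_spec
    have h3 := (mid_zdeg h').choose_spec
    injection h2 with h2
    injection h3 with h3
    rw [← h2, ← h3]
    rcases i with _ | i <;> (injection h1 with h1; exact h1.symm)

theorem zval_cell (y : Y.Cell) (h : Mid (zdeg Y) (.cell y : (Zone Y).Cell)) :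
    (zval Y).toFun (.cell y) h = y := by
  have := (mid_zdeg h).choose_spec
  injection this with this
  exact this.symm

theorem Zone.dimLE {n : ℕ∞} (hn : 1 ≤ n) (h : OmegaCat.dimLE n Y) :
    OmegaCat.dimLE n (Zone Y) := by
  intro m hm z
  rcases m with _ | m
  · exact absurd (hn.trans hm) (by simp)
  · rcases z with _ | _ | _ | y | y | y <;> first
      | rfl
      | exact congrArg ZCell.cell (h (m + 1) hm y)

variable {n : ℕ∞}

/-- `f` is a bijection onto the middle part of the grading `π`. -/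
def FullBij {A B : NCat n} (f : A ⟶ B) (π : B.obj ⟶ Lev) : Prop :=
  ∀ b, Mid π b → ∃! a, Mid (f.hom ≫ π) a ∧ f.hom.toFun a = b

/-- The inverse on the middle part, followed by a functor. -/
def FullBij.inv {A B : NCat n} {f : A ⟶ B} {π : B.obj ⟶ Lev} (hf : FullBij f π)
    (g : A.obj ⟶ Y) : PartHom π Y where
  toFun b hb := g.toFun (hf b hb).choose
  map_src i b hb := by
    rw [← g.map_src]
    congr 1
    obtain ⟨h1, h2⟩ := (hf b hb).choose_spec.1
    refine ((hf _ (hb.src i)).choose_spec.2 _ ⟨h1.src i, ?_⟩).symm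
    rw [f.hom.map_src, h2]
  map_tgt i b hb := by
    rw [← g.map_tgt]
    congr 1
    obtain ⟨h1, h2⟩ := (hf b hb).choose_spec.1
    refine ((hf _ (hb.tgt i)).choose_spec.2 _ ⟨h1.tgt i, ?_⟩).symm
    rw [f.hom.map_tgt, h2]
  map_comp i b c hb hc e := by
    obtain ⟨h1, h2⟩ := (hf b hb).choose_spec.1
    obtain ⟨k1, k2⟩ := (hf c hc).choose_spec.1
    have ea : A.obj.tgt i (hf b hb).choose = A.obj.src i (hf c hc).choose := by
      refine (hf _ (hb.tgt i)).unique ⟨h1.tgt i, ?_⟩ ⟨k1.src i, ?_⟩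
      · rw [f.hom.map_tgt, h2]
      · rw [f.hom.map_src, k2, e]
    rw [← g.map_comp i _ _ ea]
    congr 1
    refine ((hf _ (hb.comp hc i e)).choose_spec.2 _ ⟨h1.comp k1 i ea, ?_⟩).symm
    rw [f.hom.map_comp i _ _ ea, h2, k2]

/-- Middle parts of pushouts: if `f` is bijective on middle parts, so is every pushout of it. -/
theorem FullBij.pushout (hn : 1 ≤ n) {A B C P : NCat n} {g : A ⟶ C} {f : A ⟶ B} {i : C ⟶ P}
    {j : B ⟶ P} (h : IsPushout g f i j) (π : P.obj ⟶ Lev) (hf : FullBij f (j.hom ≫ π)) :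
    FullBij i π := by
  have w : g.hom ≫ i.hom = f.hom ≫ j.hom := congrArg InducedCategory.Hom.hom h.w
  let Z : NCat n := ⟨Zone C.obj, Zone.dimLE hn C.property⟩
  let ψC : C ⟶ Z := ObjectProperty.homMk (PartHom.incl (i.hom ≫ π)).hat
  let ψB : B ⟶ Z := ObjectProperty.homMk (hf.inv g.hom).hat
  have hAB : g ≫ ψC = f ≫ ψB := by
    refine ObjectProperty.hom_ext _ ?_
    show g.hom ≫ (PartHom.incl (i.hom ≫ π)).hat = f.hom ≫ (hf.inv g.hom).hat
    rw [← PartHom.pull_hat, ← PartHom.pull_hat]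
    refine PartHom.hat_congr (by rw [← Category.assoc, w, Category.assoc]) _ _ fun a ha => ?_
    have ha' : Mid (f.hom ≫ j.hom ≫ π) a :=
      ha.congr (by rw [← Category.assoc, w, Category.assoc])
    show g.hom.toFun a = g.hom.toFun (hf (f.hom.toFun a) ha').choose
    exact congrArg g.hom.toFun ((hf (f.hom.toFun a) ha').choose_spec.2 a ⟨ha', rfl⟩)
  let r : P ⟶ Z := h.desc ψC ψB hAB
  have rC : i.hom ≫ r.hom = (PartHom.incl (i.hom ≫ π)).hat :=
    congrArg InducedCategory.Hom.hom (h.inl_desc ψC ψB hAB)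
  have rB : j.hom ≫ r.hom = (hf.inv g.hom).hat :=
    congrArg InducedCategory.Hom.hom (h.inr_desc ψC ψB hAB)
  have rdeg : r.hom ≫ zdeg C.obj = π := by
    let L : NCat n := ⟨Lev, ordCat_dimLE n hn (Fin 3)⟩
    have : (ObjectProperty.homMk (r.hom ≫ zdeg C.obj) : P ⟶ L) = ObjectProperty.homMk π := by
      refine h.hom_ext (ObjectProperty.hom_ext _ ?_) (ObjectProperty.hom_ext _ ?_)
      · show i.hom ≫ r.hom ≫ zdeg _ = i.hom ≫ π
        rw [← Category.assoc, rC, PartHom.hat_zdeg]
      · show j.hom ≫ r.hom ≫ zdeg _ = j.hom ≫ π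
        rw [← Category.assoc, rB, PartHom.hat_zdeg]
    exact congrArg InducedCategory.Hom.hom this
  let back : Zone C.obj ⟶ Zone P.obj := ((zval C.obj).postcomp i.hom).hat
  have rback : r.hom ≫ back = (PartHom.incl π).hat := by
    let ZP : NCat n := ⟨Zone P.obj, Zone.dimLE hn P.property⟩
    have : (ObjectProperty.homMk (r.hom ≫ back) : P ⟶ ZP) =
        ObjectProperty.homMk (PartHom.incl π).hat := by
      refine h.hom_ext (ObjectProperty.hom_ext _ ?_) (ObjectProperty.hom_ext _ ?_)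
      · show i.hom ≫ r.hom ≫ back = i.hom ≫ (PartHom.incl π).hat
        rw [← Category.assoc, rC, ← PartHom.pull_hat, ← PartHom.pull_hat]
        refine PartHom.hat_congr (PartHom.hat_zdeg _) _ _ fun c hc => ?_
        have hm : Mid (i.hom ≫ π) c := hc.congr (PartHom.hat_zdeg _)
        have e : (PartHom.incl (i.hom ≫ π)).hat.toFun c = .cell c :=
          (PartHom.incl (i.hom ≫ π)).ext0_cell c hm
        show i.hom.toFun ((zval C.obj).toFun _ _) = i.hom.toFun c
        exact congrArg i.hom.toFun (((zval C.obj).toFun_congr e _).trans (zval_cell _ _))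
      · show j.hom ≫ r.hom ≫ back = j.hom ≫ (PartHom.incl π).hat
        rw [← Category.assoc, rB, ← PartHom.pull_hat, ← PartHom.pull_hat]
        refine PartHom.hat_congr (PartHom.hat_zdeg _) _ _ fun b hb => ?_
        have hm : Mid (j.hom ≫ π) b := hb.congr (PartHom.hat_zdeg _)
        have e : (hf.inv g.hom).hat.toFun b = .cell (g.hom.toFun (hf b hm).choose) :=
          (hf.inv g.hom).ext0_cell b hm
        show i.hom.toFun ((zval C.obj).toFun _ _) = j.hom.toFun b
        refine (congrArg i.hom.toFun (((zval C.obj).toFun_congr e _).trans (zval_cell _ _))).trans ?_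
        have e2 := (hf b hm).choose_spec.1.2
        calc i.hom.toFun (g.hom.toFun _) = j.hom.toFun (f.hom.toFun _) :=
              congrArg (fun u : A.obj ⟶ P.obj => u.toFun _) w
          _ = j.hom.toFun b := congrArg j.hom.toFun e2
    exact congrArg InducedCategory.Hom.hom this
  intro p hp
  have hrp : Mid (zdeg C.obj) (r.hom.toFun p) := hp.congr rdeg.symm
  obtain ⟨c, hc⟩ := mid_zdeg hrp
  have hic : i.hom.toFun c = p := by
    have := congrArg (fun u : P.obj ⟶ Zone P.obj => u.toFun p) rback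
    change back.toFun (r.hom.toFun p) = (PartHom.incl π).ext0 p at this
    rw [PartHom.ext0_cell _ p hp, hc] at this
    change ((zval C.obj).postcomp i.hom).ext0 (.cell c) = _ at this
    have e4 : Mid (zdeg C.obj) (ZCell.cell c : (Zone C.obj).Cell) := rfl
    have e3 := (((zval C.obj).postcomp i.hom).ext0_cell (ZCell.cell c) e4).symm.trans this
    injection e3 with e3
    exact (congrArg i.hom.toFun (zval_cell c e4)).symm.trans e3
  refine ⟨c, ⟨by show Mid π (i.hom.toFun c); rwa [hic], hic⟩, fun c' hc' => ?_⟩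
  have := congrArg (fun u : C.obj ⟶ Zone C.obj => u.toFun c') rC
  change r.hom.toFun (i.hom.toFun c') = (PartHom.incl (i.hom ≫ π)).ext0 c' at this
  rw [hc'.2, hc, PartHom.ext0_cell _ c' hc'.1] at this
  injection this with this
  exact this.symm

end Vale.Agent.P213
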