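import Vale.Agent.P213.Collage.Poset

/-!
# P213, collages: nerves of pushouts along Dwyer inclusions, and of unions of (co)sieves
-/

open CategoryTheory Limits Opposite

noncomputable section

namespace Vale.Agent.P213

variable {n : ℕ∞}

theorem isPushout_types {A B C P : Type} (g : A ⟶ C) (k : A ⟶ B) (i : C ⟶ P) (j : B ⟶ P)
    (w : g ≫ i = k ≫ j) (hi : Function.Injective i) (hk : Function.Injective k)
    (cover : ∀ p, (∃ c, i c = p) ∨ ∃ b, j b = p)
    (inter : ∀ c b, i c = j b → ∃ a, k a = b)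
    (sep : ∀ b b', (∀ a, k a ≠ b) → (∀ a, k a ≠ b') → j b = j b' → b = b') :
    IsPushout g k i j := by
  have : Mono i := (mono_iff_injective i).2 hi
  refine Types.isPushout_of_isPullback_of_mono' ?_ ?_ ?_
  · rw [Types.isPullback_iff]
    refine ⟨w, fun a a' h => hk h.2, fun c b h => ?_⟩
    obtain ⟨a, rfl⟩ := inter c b h
    exact ⟨a, hi ((ConcreteCategory.congr_hom w a).trans h.symm), rfl⟩
  · rw [Set.eq_univ_iff_forall]
    intro p
    rcases cover p with h | h
    · exact .inl h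
    · exact .inr h
  · intro b b' hb hb' h
    exact sep b b' (fun a e => hb ⟨a, e⟩) (fun a e => hb' ⟨a, e⟩) h

variable {E T : Type} [PartialOrder E] [PartialOrder T]

/-- The constant functor to a partial order. -/
def constOrd (X : OmegaCat) (t : T) : X ⟶ ordCat T where
  toFun _ := ⟨(t, t), le_rfl⟩
  map_src i _ := by rcases i with _ | i <;> rfl
  map_tgt i _ := by rcases i with _ | i <;> rfl
  map_comp i _ _ _ := by
    rcases i with _ | i
    · exact Subtype.ext (OrdCat.comp_zero (p := ⟨(t, t), le_rfl⟩) (q := ⟨(t, t), le_rfl⟩) rfl).symm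
    · rfl

theorem grade_const (hn : 1 ≤ n) (κ : E →o T) (t : T) (h : ∀ e, κ e = t) :
    grade n hn κ = constOrd _ t := by
  refine catO_hom_ext (ordCat_dimLE n hn T) fun m s => ?_
  show catι n s ≫ grade n hn κ = catι n s ≫ constOrd _ t
  rw [simplex_grade]
  refine OmegaCat.Hom.ext (funext fun (x : Table (Fin (m.len + 1))) => Subtype.ext ?_)
  show (κ (monoOf s x.vs), κ (monoOf s x.vt)) = (t, t)
  rw [h, h]

/-- Cells of a graded simplex lie in the middle when its vertices do. -/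
theorem mid_of_vertices {m : ℕ} (π : ori (Fin (m + 1)) ⟶ Lev)
    (h : ∀ k, (π.toFun (Table.point k)).1.1 = 1) (x : Table (Fin (m + 1))) : Mid π x :=
  (ordCat_val (Φ := π) x).trans (Prod.ext (h x.vs) (h x.vt))

namespace FullBij

variable {A B : NCat n} {f : A ⟶ B} {π : B.obj ⟶ Lev}

/-- Functors into the middle part are determined by their composites. -/
theorem cancel (hf : FullBij f π) {X : OmegaCat} {u v : X ⟶ A.obj}
    (hu : ∀ x, Mid (f.hom ≫ π) (u.toFun x)) (hv : ∀ x, Mid (f.hom ≫ π) (v.toFun x))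
    (e : u ≫ f.hom = v ≫ f.hom) : u = v := by
  refine OmegaCat.Hom.ext (funext fun x => ?_)
  have e' : f.hom.toFun (u.toFun x) = f.hom.toFun (v.toFun x) :=
    congrArg (fun w : X ⟶ B.obj => w.toFun x) e
  exact (hf _ (hu x)).unique ⟨hu x, rfl⟩ ⟨hv x, e'.symm⟩

/-- Functors landing in the middle part lift. -/
theorem lift (hf : FullBij f π) {X : OmegaCat} (σ : X ⟶ B.obj) (h : ∀ x, Mid (σ ≫ π) x) :
    ∃ u : X ⟶ A.obj, u ≫ f.hom = σ := by
  let φ := (hf.inv (𝟙 A.obj)).pull σ
  refine ⟨{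
    toFun := fun x => φ.toFun x (h x)
    map_src := fun i x => φ.map_src i x (h x)
    map_tgt := fun i x => φ.map_tgt i x (h x)
    map_comp := fun i x y e => φ.map_comp i x y (h x) (h y) e }, ?_⟩
  refine OmegaCat.Hom.ext (funext fun x => ?_)
  exact (hf (σ.toFun x) (h x)).choose_spec.1.2

end FullBij

/-- The nerve of a square of n-categories covered by two gradings. -/
theorem nerve_square {A B C P : NCat n} (g : A ⟶ C) (k : A ⟶ B) (i : C ⟶ P) (j : B ⟶ P)
    (w : g ≫ i = k ≫ j) (π₁ π₂ : P.obj ⟶ Lev)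
    (hi : FullBij i π₁) (hiC : ∀ c, Mid (i.hom ≫ π₁) c)
    (hk : FullBij k (j.hom ≫ π₁)) (hkA : ∀ a, Mid (k.hom ≫ j.hom ≫ π₁) a)
    (hj : FullBij j π₂)
    (cover : ∀ (m : ℕ) (σ : ori (Fin (m + 1)) ⟶ P.obj),
      (∀ v, ((σ ≫ π₁).toFun (Table.point v)).1.1 = 1) ∨
        ∀ v, ((σ ≫ π₂).toFun (Table.point v)).1.1 = 1) :
    IsPushout ((nerveN n).map g) ((nerveN n).map k) ((nerveN n).map i) ((nerveN n).map j) ∧
      Mono ((nerveN n).map k) := by
  have hiN : ∀ (m : SimplexCategoryᵒᵖ), Function.Injective (((nerveN n).map i).app m) := by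
    intro m u v e
    refine ULift.ext _ _ (hi.cancel (fun x => hiC _) (fun x => hiC _) ?_)
    exact congrArg ULift.down e
  have hkN : ∀ (m : SimplexCategoryᵒᵖ), Function.Injective (((nerveN n).map k).app m) := by
    intro m u v e
    refine ULift.ext _ _ (hk.cancel (fun x => hkA _) (fun x => hkA _) ?_)
    exact congrArg ULift.down e
  refine ⟨IsPushout.of_forall_isPushout_app fun m => ?_, ?_⟩
  · refine isPushout_types _ _ _ _ ?_ (hiN m) (hkN m) ?_ ?_ ?_
    · rw [← NatTrans.comp_app, ← NatTrans.comp_app, ← Functor.map_comp, ← Functor.map_comp, w]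
    · intro p
      let σ : ori (Fin (m.unop.len + 1)) ⟶ P.obj := p.down
      rcases cover m.unop.len σ with h | h
      · obtain ⟨u, hu⟩ := hi.lift σ (mid_of_vertices _ h)
        exact .inl ⟨ULift.up u, ULift.ext _ _ hu⟩
      · obtain ⟨u, hu⟩ := hj.lift σ (mid_of_vertices _ h)
        exact .inr ⟨ULift.up u, ULift.ext _ _ hu⟩
    · intro c b e
      let cσ : ori (Fin (m.unop.len + 1)) ⟶ C.obj := c.down
      let bσ : ori (Fin (m.unop.len + 1)) ⟶ B.obj := b.down
      have e' : cσ ≫ i.hom = bσ ≫ j.hom := congrArg ULift.down e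
      have hb : ∀ x, Mid (bσ ≫ j.hom ≫ π₁) x := fun x => by
        refine Mid.congr (π := cσ ≫ i.hom ≫ π₁) ?_ (hiC (cσ.toFun x))
        rw [← Category.assoc, e', Category.assoc]
      obtain ⟨u, hu⟩ := hk.lift bσ hb
      exact ⟨ULift.up u, ULift.ext _ _ hu⟩
    · intro b b' hb hb' e
      let bσ : ori (Fin (m.unop.len + 1)) ⟶ B.obj := b.down
      let bσ' : ori (Fin (m.unop.len + 1)) ⟶ B.obj := b'.down
      have e' : bσ ≫ j.hom = bσ' ≫ j.hom := congrArg ULift.down e
      rcases cover m.unop.len (bσ ≫ j.hom) with h | h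
      · exfalso
        have hm : ∀ x, Mid (bσ ≫ j.hom ≫ π₁) x := fun x =>
          (mid_of_vertices _ h x).congr (Category.assoc _ _ _)
        obtain ⟨u, hu⟩ := hk.lift bσ hm
        exact hb (ULift.up u) (ULift.ext _ _ hu)
      · have hm := mid_of_vertices _ h
        refine ULift.ext _ _ (hj.cancel (u := bσ) (v := bσ') (fun x => ?_) (fun x => ?_) e')
        · exact hm x
        · exact (hm x).congr (congrArg (· ≫ π₂) e')
  · have : ∀ m, Mono (((nerveN n).map k).app m) := fun m => (mono_iff_injective _).2 (hkN m)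
    exact NatTrans.mono_of_mono_app _

/-- Pairs of levels with one entry in the middle and both at most the middle. -/
abbrev LowPair : Type := {p : Fin 3 × Fin 3 // p.1 ≤ 1 ∧ p.2 ≤ 1 ∧ (p.1 = 1 ∨ p.2 = 1)}

/-- Pairs of levels with one entry in the middle and both at least the middle. -/
abbrev HighPair : Type := {p : Fin 3 × Fin 3 // 1 ≤ p.1 ∧ 1 ≤ p.2 ∧ (p.1 = 1 ∨ p.2 = 1)}

/-- The first level. -/
def LowPair.fst : LowPair →o Fin 3 := ⟨fun p => p.1.1, fun _ _ h => h.1⟩

/-- The second level. -/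
def LowPair.snd : LowPair →o Fin 3 := ⟨fun p => p.1.2, fun _ _ h => h.2⟩

/-- The first level. -/
def HighPair.fst : HighPair →o Fin 3 := ⟨fun p => p.1.1, fun _ _ h => h.1⟩

/-- The second level. -/
def HighPair.snd : HighPair →o Fin 3 := ⟨fun p => p.1.2, fun _ _ h => h.2⟩

theorem cover_low {P : OmegaCat} (π : P ⟶ ordCat LowPair) (m : ℕ) (σ : ori (Fin (m + 1)) ⟶ P) :
    (∀ v, ((σ ≫ π ≫ ordMap LowPair.fst).toFun (Table.point v)).1.1 = 1) ∨
      ∀ v, ((σ ≫ π ≫ ordMap LowPair.snd).toFun (Table.point v)).1.1 = 1 := by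
  let t : Fin (m + 1) → LowPair := fun v => ((σ ≫ π).toFun (Table.point v)).1.1
  have hmono : ∀ v, t 0 ≤ t v := fun v => ordCat_mono (Φ := σ ≫ π) (Fin.zero_le v)
  obtain ⟨-, -, h | h⟩ := (t 0).2
  · exact .inl fun v => le_antisymm (t v).2.1 (le_of_eq_of_le h.symm (hmono v).1)
  · exact .inr fun v => le_antisymm (t v).2.2.1 (le_of_eq_of_le h.symm (hmono v).2)

theorem cover_high {P : OmegaCat} (π : P ⟶ ordCat HighPair) (m : ℕ) (σ : ori (Fin (m + 1)) ⟶ P) :
    (∀ v, ((σ ≫ π ≫ ordMap HighPair.fst).toFun (Table.point v)).1.1 = 1) ∨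
      ∀ v, ((σ ≫ π ≫ ordMap HighPair.snd).toFun (Table.point v)).1.1 = 1 := by
  let t : Fin (m + 1) → HighPair := fun v => ((σ ≫ π).toFun (Table.point v)).1.1
  have hmono : ∀ v, t v ≤ t (Fin.last m) := fun v => ordCat_mono (Φ := σ ≫ π) (Fin.le_last v)
  obtain ⟨-, -, h | h⟩ := (t (Fin.last m)).2
  · exact .inl fun v => le_antisymm (le_of_le_of_eq (hmono v).1 h) (t v).2.1
  · exact .inr fun v => le_antisymm (le_of_le_of_eq (hmono v).2 h) (t v).2.2.1

theorem allMid (hn : 1 ≤ n) {S : Set E} (κ : E →o Fin 3) (h : ∀ e ∈ S, κ e = 1)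
    (x : (catO n S).obj.Cell) : Mid ((catOMap n (setVal S)).hom ≫ grade n hn κ) x := by
  refine Mid.congr (π := constOrd _ (1 : Fin 3)) ?_ rfl
  rw [catOMap_grade, grade_const hn (κ.comp (setVal S)) 1 fun e => h e.1 e.2]

/-- Two convex sets covering `E`, through any grading by `U` separating them. -/
theorem nerve_union (hn : 1 ≤ n) (P Q : Set E) {U : Type} [PartialOrder U] (fst snd : U →o Fin 3)
    (κ : E →o U) (h₁ : ∀ e, e ∈ P ↔ fst (κ e) = 1) (h₂ : ∀ e, e ∈ Q ↔ snd (κ e) = 1)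
    (mn : Fin 3 → Fin 3 → Fin 3) (hmn : Monotone fun p : Fin 3 × Fin 3 => mn p.1 p.2)
    (hpq : ∀ e, e ∈ P ∩ Q ↔ mn (fst (κ e)) (snd (κ e)) = 1) (h11 : mn 1 1 = 1)
    (cover : ∀ (m : ℕ) (σ : ori (Fin (m + 1)) ⟶ (catO n E).obj),
      (∀ v, ((σ ≫ grade n hn κ ≫ ordMap fst).toFun (Table.point v)).1.1 = 1) ∨
        ∀ v, ((σ ≫ grade n hn κ ≫ ordMap snd).toFun (Table.point v)).1.1 = 1) :
    IsPushout ((nerveN n).map (catOMap n (setIncl (Set.inter_subset_left : P ∩ Q ⊆ P))))
      ((nerveN n).map (catOMap n (setIncl (Set.inter_subset_right : P ∩ Q ⊆ Q))))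
      ((nerveN n).map (catOMap n (setVal P))) ((nerveN n).map (catOMap n (setVal Q))) := by
  let κ₁ : E →o Fin 3 := fst.comp κ
  let κ₂ : E →o Fin 3 := snd.comp κ
  let both : U →o Fin 3 := ⟨fun u => mn (fst u) (snd u),
    fun u v h => hmn (show (fst u, snd u) ≤ (fst v, snd v) from ⟨fst.monotone h, snd.monotone h⟩)⟩
  let iQ := catOMap n (setIncl (Set.inter_subset_right : P ∩ Q ⊆ Q))
  have comp_eq : iQ ≫ catOMap n (setVal Q) = catOMap n (setVal (P ∩ Q)) := by
    show (cN n).map _ ≫ (cN n).map _ = (cN n).map _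
    rw [← Functor.map_comp]
    rfl
  have comp_eq' : catOMap n (setIncl (Set.inter_subset_left : P ∩ Q ⊆ P)) ≫ catOMap n (setVal P) =
      catOMap n (setVal (P ∩ Q)) := by
    show (cN n).map _ ≫ (cN n).map _ = (cN n).map _
    rw [← Functor.map_comp]
    rfl
  have hQ := fullBij_catO (n := n) (S := Q) (κ := κ₂) h₂ hn
  have hPQ := fullBij_catO (n := n) (S := P ∩ Q) (κ := both.comp κ) hpq hn
  refine (nerve_square _ iQ _ _ (comp_eq'.trans comp_eq.symm) (grade n hn κ₁) (grade n hn κ₂)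
    (fullBij_catO h₁ hn) (allMid hn κ₁ fun e he => (h₁ e).1 he) ?_ ?_ hQ ?_).1
  · intro b hb
    let e := (catOMap n (setVal Q)).hom.toFun b
    have hb2 : Mid (grade n hn κ₂) e := allMid hn κ₂ (fun e he => (h₂ e).1 he) b
    have hb1 : Mid (grade n hn κ₁) e := hb
    have heq : Mid (grade n hn (both.comp κ)) e := by
      rw [← grade_ordMap hn κ fst] at hb1
      rw [← grade_ordMap hn κ snd] at hb2
      rw [← grade_ordMap hn κ both]
      refine Prod.ext ?_ ?_
      · show mn (fst ((grade n hn κ).toFun e).1.1) (snd ((grade n hn κ).toFun e).1.1) = 1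
        rw [show fst ((grade n hn κ).toFun e).1.1 = 1 from congrArg Prod.fst hb1,
          show snd ((grade n hn κ).toFun e).1.1 = 1 from congrArg Prod.fst hb2, h11]
      · show mn (fst ((grade n hn κ).toFun e).1.2) (snd ((grade n hn κ).toFun e).1.2) = 1
        rw [show fst ((grade n hn κ).toFun e).1.2 = 1 from congrArg Prod.snd hb1,
          show snd ((grade n hn κ).toFun e).1.2 = 1 from congrArg Prod.snd hb2, h11]
    have hc : iQ.hom ≫ (catOMap n (setVal Q)).hom = (catOMap n (setVal (P ∩ Q))).hom :=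
      congrArg InducedCategory.Hom.hom comp_eq
    have hm1 : ∀ a, Mid (iQ.hom ≫ (catOMap n (setVal Q)).hom ≫ grade n hn κ₁) a := fun a =>
      (allMid hn κ₁ (fun e he => (h₁ e).1 he.1) a).congr (by rw [← Category.assoc, hc])
    obtain ⟨a, ⟨ha, ha'⟩, hu⟩ := hPQ e heq
    have hqa : (catOMap n (setVal Q)).hom.toFun (iQ.hom.toFun a) = e :=
      (congrArg (fun w : (catO n ↥(P ∩ Q)).obj ⟶ (catO n E).obj => w.toFun a) hc).trans ha'
    refine ⟨a, ⟨hm1 a, (hQ e hb2).unique
      ⟨allMid hn κ₂ (fun e he => (h₂ e).1 he) _, hqa⟩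
      ⟨allMid hn κ₂ (fun e he => (h₂ e).1 he) b, rfl⟩⟩, fun a' h => ?_⟩
    refine hu a' ⟨?_, ?_⟩
    · exact allMid hn (both.comp κ) (fun e he => (hpq e).1 he) a'
    · exact (congrArg (fun w : (catO n ↥(P ∩ Q)).obj ⟶ (catO n E).obj => w.toFun a') hc).symm.trans
        (congrArg (catOMap n (setVal Q)).hom.toFun h.2)
  · intro a
    exact (allMid hn κ₁ (fun e he => (h₁ e).1 he.1) a).congr
      (by rw [← Category.assoc, congrArg InducedCategory.Hom.hom comp_eq.symm]; rfl)
  · intro m σ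
    have := cover m σ
    rwa [grade_ordMap, grade_ordMap] at this

/-- The nerve of a union of sieves. -/
theorem nerve_sieves (n : ℕ∞) (hn : 1 ≤ n) {E : Type} [PartialOrder E] (P Q : Set E)
    (hP : IsLowerSet P) (hQ : IsLowerSet Q) (hPQ : P ∪ Q = Set.univ) :
    IsPushout ((nerveN n).map (catOMap n (setIncl (Set.inter_subset_left : P ∩ Q ⊆ P))))
      ((nerveN n).map (catOMap n (setIncl (Set.inter_subset_right : P ∩ Q ⊆ Q))))
      ((nerveN n).map (catOMap n (setVal P))) ((nerveN n).map (catOMap n (setVal Q))) := by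
  classical
  let κ : E →o HighPair :=
    ⟨fun e => ⟨(if e ∈ P then 1 else 2, if e ∈ Q then 1 else 2), by
      have : e ∈ P ∪ Q := by rw [hPQ]; trivial
      rcases this with h | h <;> simp [h] <;> split_ifs <;> decide⟩,
    fun a b hab => by
      refine ⟨?_, ?_⟩
      · by_cases h : b ∈ P
        · simp [h, hP hab h]
        · simp [h]; split_ifs <;> decide
      · by_cases h : b ∈ Q
        · simp [h, hQ hab h]
        · simp [h]; split_ifs <;> decide⟩
  refine nerve_union hn P Q HighPair.fst HighPair.snd κ ?_ ?_ max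
    (fun p q h => max_le_max h.1 h.2) ?_ rfl (fun m σ => cover_high _ m σ)
  · intro e; show e ∈ P ↔ (if e ∈ P then (1 : Fin 3) else 2) = 1; by_cases h : e ∈ P <;> simp [h]
  · intro e; show e ∈ Q ↔ (if e ∈ Q then (1 : Fin 3) else 2) = 1; by_cases h : e ∈ Q <;> simp [h]
  · intro e
    show e ∈ P ∩ Q ↔ max (if e ∈ P then (1 : Fin 3) else 2) (if e ∈ Q then (1 : Fin 3) else 2) = 1
    by_cases h : e ∈ P <;> by_cases h' : e ∈ Q <;> simp [h, h']

/-- The nerve of a union of cosieves. -/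
theorem nerve_cosieves (n : ℕ∞) (hn : 1 ≤ n) {E : Type} [PartialOrder E] (P Q : Set E)
    (hP : IsUpperSet P) (hQ : IsUpperSet Q) (hPQ : P ∪ Q = Set.univ) :
    IsPushout ((nerveN n).map (catOMap n (setIncl (Set.inter_subset_left : P ∩ Q ⊆ P))))
      ((nerveN n).map (catOMap n (setIncl (Set.inter_subset_right : P ∩ Q ⊆ Q))))
      ((nerveN n).map (catOMap n (setVal P))) ((nerveN n).map (catOMap n (setVal Q))) := by
  classical
  let κ : E →o LowPair :=
    ⟨fun e => ⟨(if e ∈ P then 1 else 0, if e ∈ Q then 1 else 0), by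
      have : e ∈ P ∪ Q := by rw [hPQ]; trivial
      rcases this with h | h <;> simp [h] <;> split_ifs <;> decide⟩,
    fun a b hab => by
      refine ⟨?_, ?_⟩
      · by_cases h : a ∈ P
        · simp [h, hP hab h]
        · simp [h]
      · by_cases h : a ∈ Q
        · simp [h, hQ hab h]
        · simp [h]⟩
  refine nerve_union hn P Q LowPair.fst LowPair.snd κ ?_ ?_ min
    (fun p q h => min_le_min h.1 h.2) ?_ rfl (fun m σ => cover_low _ m σ)
  · intro e; show e ∈ P ↔ (if e ∈ P then (1 : Fin 3) else 0) = 1; by_cases h : e ∈ P <;> simp [h]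
  · intro e; show e ∈ Q ↔ (if e ∈ Q then (1 : Fin 3) else 0) = 1; by_cases h : e ∈ Q <;> simp [h]
  · intro e
    show e ∈ P ∩ Q ↔ min (if e ∈ P then (1 : Fin 3) else 0) (if e ∈ Q then (1 : Fin 3) else 0) = 1
    by_cases h : e ∈ P <;> by_cases h' : e ∈ Q <;> simp [h, h']

theorem mem_up {A : Set E} {e : E} : e ∈ up A ↔ ∃ a ∈ A, a ≤ e := Iff.rfl

/-- For `C → D = C +_{O A} O(up A)` and `D → P = D +_{O(up A)} O E` the second square goes to a
pushout of monomorphisms. -/
theorem nerve_collage (n : ℕ∞) (hn : 1 ≤ n) {E : Type} [PartialOrder E] {A : Set E}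
    (hA : IsDwyer A) (h : A ⊆ up A) {C D P : NCat n} (g : catO n A ⟶ C) (i : C ⟶ D)
    (j : catO n (up A) ⟶ D) (hD : IsPushout g (catOMap n (setIncl h)) i j) (i' : D ⟶ P)
    (j' : catO n E ⟶ P) (hP : IsPushout j (catOMap n (setVal (up A))) i' j') :
    IsPushout ((nerveN n).map j) ((nerveN n).map (catOMap n (setVal (up A))))
        ((nerveN n).map i') ((nerveN n).map j') ∧
      Mono ((nerveN n).map (catOMap n (setVal (up A)))) := by
  classical
  let κ : E →o LowPair :=
    ⟨fun e => ⟨(if e ∈ up A then 1 else 0, if e ∈ A then 0 else 1), by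
      by_cases h' : e ∈ A
      · simp [h', h h']
      · simp [h']; split_ifs <;> decide⟩,
    fun a b hab => by
      refine ⟨?_, ?_⟩
      · by_cases h' : a ∈ up A
        · have : b ∈ up A := by obtain ⟨c, hc, hca⟩ := h'; exact ⟨c, hc, hca.trans hab⟩
          simp [h', this]
        · simp [h']
      · by_cases h' : b ∈ A
        · simp [h', hA.1 b h' a hab]
        · simp [h']; split_ifs <;> decide⟩
  let cv : LowPair := ⟨(1, 0), by decide⟩
  let Tc : NCat n := ⟨ordCat LowPair, ordCat_dimLE n hn LowPair⟩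
  let κu : ↥(up A) →o LowPair := κ.comp (setVal (up A))
  let ψC : C ⟶ Tc := ObjectProperty.homMk (constOrd _ cv)
  let ψU : catO n (up A) ⟶ Tc := ObjectProperty.homMk (grade n hn κu)
  have w : g ≫ ψC = catOMap n (setIncl h) ≫ ψU := by
    refine ObjectProperty.hom_ext _ ?_
    show g.hom ≫ constOrd _ cv = (catOMap n (setIncl h)).hom ≫ grade n hn κu
    rw [catOMap_grade, grade_const hn (κu.comp (setIncl h)) cv fun e => by
      refine Subtype.ext ?_
      show ((if (e : E) ∈ up A then 1 else 0, if (e : E) ∈ A then 0 else 1) : Fin 3 × Fin 3) = _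
      simp [e.2, h e.2, cv]]
    rfl
  let πD : D ⟶ Tc := hD.desc ψC ψU w
  have w' : j ≫ πD = catOMap n (setVal (up A)) ≫ ObjectProperty.homMk (grade n hn κ) := by
    rw [hD.inr_desc]
    exact ObjectProperty.hom_ext _ (catOMap_grade hn (setVal (up A)) κ).symm
  let πP : P ⟶ Tc := hP.desc πD (ObjectProperty.homMk (grade n hn κ)) w'
  have eD : i'.hom ≫ πP.hom = πD.hom := congrArg InducedCategory.Hom.hom (hP.inl_desc _ _ w')
  have eE : j'.hom ≫ πP.hom = grade n hn κ :=
    congrArg InducedCategory.Hom.hom (hP.inr_desc _ _ w')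
  have eC : i.hom ≫ πD.hom = constOrd _ cv := congrArg InducedCategory.Hom.hom (hD.inl_desc _ _ w)
  have eU : j.hom ≫ πD.hom = grade n hn κu :=
    congrArg InducedCategory.Hom.hom (hD.inr_desc _ _ w)
  let π₁ := πP.hom ≫ ordMap LowPair.fst
  let π₂ := πP.hom ≫ ordMap LowPair.snd
  have hfst : ∀ e, e ∈ up A ↔ (LowPair.fst.comp κ) e = 1 := fun e => by
    show e ∈ up A ↔ (if e ∈ up A then (1 : Fin 3) else 0) = 1
    by_cases h' : e ∈ up A <;> simp [h']
  have e1 : j'.hom ≫ π₁ = grade n hn (LowPair.fst.comp κ) := by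
    rw [← Category.assoc, eE, grade_ordMap]
  have hk : FullBij (catOMap n (setVal (up A))) (j'.hom ≫ π₁) := e1 ▸ fullBij_catO hfst hn
  have hkA : ∀ a, Mid ((catOMap n (setVal (up A))).hom ≫ j'.hom ≫ π₁) a := fun a =>
    e1 ▸ allMid hn _ (fun e he => (hfst e).1 he) a
  have hiD : ∀ d, Mid (i'.hom ≫ π₁) d := by
    let L : NCat n := ⟨Lev, ordCat_dimLE n hn (Fin 3)⟩
    have : (ObjectProperty.homMk (i'.hom ≫ π₁) : D ⟶ L) =
        ObjectProperty.homMk (constOrd _ (1 : Fin 3)) := by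
      refine hD.hom_ext (ObjectProperty.hom_ext _ ?_) (ObjectProperty.hom_ext _ ?_)
      · show i.hom ≫ i'.hom ≫ πP.hom ≫ _ = i.hom ≫ constOrd _ _
        rw [← Category.assoc i'.hom, eD, ← Category.assoc, eC]
        rfl
      · show j.hom ≫ i'.hom ≫ πP.hom ≫ _ = j.hom ≫ constOrd _ _
        rw [← Category.assoc i'.hom, eD, ← Category.assoc, eU, grade_ordMap,
          grade_const hn (LowPair.fst.comp κu) 1 fun e => (hfst e.1).1 e.2]
        rfl
    exact fun d => Mid.congr (π := constOrd _ (1 : Fin 3))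
      (congrArg InducedCategory.Hom.hom this).symm rfl
  have hgC : FullBij g (i.hom ≫ i'.hom ≫ π₂) := by
    intro c hc
    exfalso
    have e2 : i.hom ≫ i'.hom ≫ π₂ = constOrd _ (0 : Fin 3) := by
      show i.hom ≫ i'.hom ≫ πP.hom ≫ _ = _
      rw [← Category.assoc i'.hom, eD, ← Category.assoc, eC]
      rfl
    exact absurd (congrArg Prod.fst (hc.congr e2)) (show ¬((0 : Fin 3) = 1) by decide)
  have hjD : FullBij j (i'.hom ≫ π₂) := FullBij.pushout hn hD.flip _ hgC
  refine nerve_square j _ i' j' hP.w π₁ π₂ (FullBij.pushout hn hP π₁ hk) hiD hk hkA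
    (FullBij.pushout hn hP.flip π₂ hjD) fun m σ => ?_
  exact cover_low πP.hom m σ

end Vale.Agent.P213
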