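import Vale.Agent.P213.OmegaCat

/-!
# P213, collages: convex full parts of pushouts of n-categories

`Zone Y` adjoins to `Y` a bottom and a top object, with exactly one cell from the bottom to every
object and from every object to the top. A grading of `X` by `lo < mid < hi` and a functor from the
middle part of `X` to `Y` give a functor from `X` to `Zone Y`; hence middle parts of pushouts are
pushouts of middle parts.
-/

open CategoryTheory

noncomputable section

namespace Vale.Agent.P213

namespace OrdCat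

variable {T : Type} [PartialOrder T]

/-- Source. -/
def src : ℕ → {p : T × T // p.1 ≤ p.2} → {p : T × T // p.1 ≤ p.2}
  | 0, p => ⟨(p.1.1, p.1.1), le_rfl⟩
  | _ + 1, p => p

/-- Target. -/
def tgt : ℕ → {p : T × T // p.1 ≤ p.2} → {p : T × T // p.1 ≤ p.2}
  | 0, p => ⟨(p.1.2, p.1.2), le_rfl⟩
  | _ + 1, p => p

open Classical in
/-- Composition. -/
def comp : ℕ → {p : T × T // p.1 ≤ p.2} → {p : T × T // p.1 ≤ p.2} → {p : T × T // p.1 ≤ p.2}
  | 0, p, q => if h : p.1.2 = q.1.1 then ⟨(p.1.1, q.1.2), p.2.trans (h ▸ q.2)⟩ else p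
  | _ + 1, p, _ => p

theorem eq_of {p q : {p : T × T // p.1 ≤ p.2}} (h : tgt 0 p = src 0 q) : p.1.2 = q.1.1 :=
  congrArg (fun r => r.1.1) h

theorem comp_zero {p q : {p : T × T // p.1 ≤ p.2}} (h : p.1.2 = q.1.1) :
    (comp 0 p q).1 = (p.1.1, q.1.2) := by simp [comp, h]

end OrdCat

open OrdCat in
/-- A partial order as an omega-category. -/
def ordCat (T : Type) [PartialOrder T] : OmegaCat where
  Cell := {p : T × T // p.1 ≤ p.2}
  src := OrdCat.src
  tgt := OrdCat.tgt
  comp := OrdCat.comp
  src_src i x := by rcases i <;> rfl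
  tgt_src i x := by rcases i <;> rfl
  src_tgt i x := by rcases i <;> rfl
  tgt_tgt i x := by rcases i <;> rfl
  src_src_lo {i j} h x := by rcases j with _ | j <;> [omega; rfl]
  src_tgt_lo {i j} h x := by rcases j with _ | j <;> [omega; rfl]
  tgt_src_lo {i j} h x := by rcases j with _ | j <;> [omega; rfl]
  tgt_tgt_lo {i j} h x := by rcases j with _ | j <;> [omega; rfl]
  src_src_hi {i j} h x := by rcases j with _ | j <;> [omega; rfl]
  src_tgt_hi {i j} h x := by rcases j with _ | j <;> [omega; rfl]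
  tgt_src_hi {i j} h x := by rcases j with _ | j <;> [omega; rfl]
  tgt_tgt_hi {i j} h x := by rcases j with _ | j <;> [omega; rfl]
  finite_dim x := ⟨1, rfl⟩
  src_comp i x y h := by
    rcases i with _ | i
    · exact Subtype.ext (by simp [OrdCat.src, comp_zero (eq_of h)])
    · rfl
  tgt_comp i x y h := by
    rcases i with _ | i
    · exact Subtype.ext (by simp [OrdCat.tgt, comp_zero (eq_of h)])
    · exact h
  src_comp_hi {i j} hij x y _ := by rcases j with _ | j <;> [omega; rfl]
  tgt_comp_hi {i j} hij x y _ := by rcases j with _ | j <;> [omega; rfl]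
  unit_left i x := by
    rcases i with _ | i
    · exact Subtype.ext (by simp [OrdCat.src, OrdCat.comp])
    · rfl
  unit_right i x := by
    rcases i with _ | i
    · exact Subtype.ext (by simp [OrdCat.tgt, OrdCat.comp])
    · rfl
  assoc i x y z h h' := by
    rcases i with _ | i
    · have h1 := eq_of h
      have h2 := eq_of h'
      exact Subtype.ext (by simp [OrdCat.comp, h1, h2])
    · rfl
  interchange {i j} hij x y z w _ _ _ := by
    rcases j with _ | j
    · omega
    rcases i with _ | i <;> rfl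

theorem ordCat_dimLE (n : ℕ∞) (hn : 1 ≤ n) (T : Type) [PartialOrder T] :
    OmegaCat.dimLE n (ordCat T) := by
  intro m hm x
  rcases m with _ | m
  · exact absurd (hn.trans hm) (by simp)
  · rfl

/-- The functor of a monotone map. -/
def ordMap {T U : Type} [PartialOrder T] [PartialOrder U] (f : T →o U) :
    ordCat T ⟶ ordCat U where
  toFun p := ⟨(f p.1.1, f p.1.2), f.monotone p.2⟩
  map_src i x := by rcases i with _ | i <;> rfl
  map_tgt i x := by rcases i with _ | i <;> rfl
  map_comp i x y h := by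
    rcases i with _ | i
    · have h1 := OrdCat.eq_of h
      exact Subtype.ext (by simp [ordCat, OrdCat.comp, h1])
    · rfl

/-- The three levels. -/
abbrev Lev : OmegaCat := ordCat (Fin 3)

/-- A cell lies in the middle level. -/
def Mid {X : OmegaCat} (π : X ⟶ Lev) (x : X.Cell) : Prop :=
  (π.toFun x).1 = (1, 1)

namespace Mid

variable {X : OmegaCat} {π : X ⟶ Lev} {x y : X.Cell}

theorem src (h : Mid π x) (i : ℕ) : Mid π (X.src i x) := by
  unfold Mid at h ⊢
  rw [π.map_src]
  rcases i with _ | i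
  · show ((π.toFun x).1.1, (π.toFun x).1.1) = _
    rw [h]
  · exact h

theorem tgt (h : Mid π x) (i : ℕ) : Mid π (X.tgt i x) := by
  unfold Mid at h ⊢
  rw [π.map_tgt]
  rcases i with _ | i
  · show ((π.toFun x).1.2, (π.toFun x).1.2) = _
    rw [h]
  · exact h

theorem comp (hx : Mid π x) (hy : Mid π y) (i : ℕ) (h : X.tgt i x = X.src i y) :
    Mid π (X.comp i x y) := by
  unfold Mid at hx hy ⊢
  rw [π.map_comp i x y h]
  rcases i with _ | i
  · show (OrdCat.comp 0 (π.toFun x) (π.toFun y)).1 = _
    have e : (π.toFun x).1.2 = (π.toFun y).1.1 :=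
      (congrArg Prod.snd hx).trans (congrArg Prod.fst hy).symm
    exact (OrdCat.comp_zero e).trans
      (Prod.ext (congrArg Prod.fst hx :) (congrArg Prod.snd hy :))
  · exact hx

end Mid

/-- Objects of an omega-category. -/
abbrev Obj0 (Y : OmegaCat) : Type := {y : Y.Cell // Y.src 0 y = y}

/-- Cells of `Zone Y`. -/
inductive ZCell (Y : OmegaCat) : Type
  | bot
  | top
  | across
  | up (y : Obj0 Y)
  | dn (y : Obj0 Y)
  | cell (y : Y.Cell)

/-- The source of a lower dimension of a composite. -/
theorem src_comp_lo (Y : OmegaCat) {i j : ℕ} (h : i < j) {x y : Y.Cell}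
    (e : Y.tgt j x = Y.src j y) : Y.src i (Y.comp j x y) = Y.src i x := by
  rw [← Y.src_src_lo h (Y.comp j x y), Y.src_comp j x y e, Y.src_src_lo h]

/-- The target of a lower dimension of a composite. -/
theorem tgt_comp_lo (Y : OmegaCat) {i j : ℕ} (h : i < j) {x y : Y.Cell}
    (e : Y.tgt j x = Y.src j y) : Y.tgt i (Y.comp j x y) = Y.tgt i y := by
  rw [← Y.tgt_tgt_lo h (Y.comp j x y), Y.tgt_comp j x y e, Y.tgt_tgt_lo h]

/-- For composable cells the lower targets agree. -/
theorem tgt_eq_lo (Y : OmegaCat) {i j : ℕ} (h : i < j) {x y : Y.Cell}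
    (e : Y.tgt j x = Y.src j y) : Y.tgt i x = Y.tgt i y := by
  rw [← Y.tgt_tgt_lo h x, e, Y.tgt_src_lo h]

namespace ZCell

variable {Y : OmegaCat}

/-- The object of a source. -/
def objS (y : Y.Cell) : Obj0 Y := ⟨Y.src 0 y, Y.src_src 0 y⟩

/-- The object of a target. -/
def objT (y : Y.Cell) : Obj0 Y := ⟨Y.tgt 0 y, Y.src_tgt 0 y⟩

/-- Source. -/
def src : ℕ → ZCell Y → ZCell Y
  | 0, .bot => .bot
  | 0, .top => .top
  | 0, .across => .bot
  | 0, .up _ => .bot
  | 0, .dn y => .cell y.1
  | i, .cell y => .cell (Y.src i y)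
  | _ + 1, x => x

/-- Target. -/
def tgt : ℕ → ZCell Y → ZCell Y
  | 0, .bot => .bot
  | 0, .top => .top
  | 0, .across => .top
  | 0, .up y => .cell y.1
  | 0, .dn _ => .top
  | i, .cell y => .cell (Y.tgt i y)
  | _ + 1, x => x

/-- Composition. -/
def comp : ℕ → ZCell Y → ZCell Y → ZCell Y
  | i, .cell a, .cell b => .cell (Y.comp i a b)
  | _, .bot, y => y
  | 0, .up _, .cell b => .up (objT b)
  | 0, .up _, .dn _ => .across
  | 0, .cell a, .dn _ => .dn (objS a)
  | _, x, _ => x

theorem src_obj (y : Obj0 Y) : Y.src 0 y.1 = y.1 := y.2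

theorem tgt_obj (y : Obj0 Y) : Y.tgt 0 y.1 = y.1 := by
  conv_lhs => rw [← y.2]
  rw [Y.tgt_src, y.2]

theorem tgt_zero_src {i : ℕ} (y : Y.Cell) : Y.tgt 0 (Y.src i y) =
    if i = 0 then Y.src 0 y else Y.tgt 0 y := by
  rcases i with _ | i
  · simp [Y.tgt_src]
  · simp [Y.tgt_src_lo (Nat.succ_pos i)]

end ZCell

open ZCell in
/-- The collage of a point, `Y` and a point. -/
def Zone (Y : OmegaCat) : OmegaCat where
  Cell := ZCell Y
  src := ZCell.src
  tgt := ZCell.tgt
  comp := ZCell.comp
  src_src i x := by rcases i with _ | i <;> rcases x <;> simp [ZCell.src, Y.src_src, src_obj]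
  tgt_src i x := by
    rcases i with _ | i <;> rcases x <;> simp [ZCell.src, ZCell.tgt, Y.tgt_src, tgt_obj]
  src_tgt i x := by
    rcases i with _ | i <;> rcases x <;> simp [ZCell.src, ZCell.tgt, Y.src_tgt, src_obj]
  tgt_tgt i x := by rcases i with _ | i <;> rcases x <;> simp [ZCell.tgt, Y.tgt_tgt, tgt_obj]
  src_src_lo {i j} h x := by
    rcases j with _ | j
    · omega
    rcases i with _ | i <;> rcases x <;> simp [ZCell.src, Y.src_src_lo h]
  src_tgt_lo {i j} h x := by
    rcases j with _ | j
    · omega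
    rcases i with _ | i <;> rcases x <;> simp [ZCell.src, ZCell.tgt, Y.src_tgt_lo h]
  tgt_src_lo {i j} h x := by
    rcases j with _ | j
    · omega
    rcases i with _ | i <;> rcases x <;> simp [ZCell.src, ZCell.tgt, Y.tgt_src_lo h]
  tgt_tgt_lo {i j} h x := by
    rcases j with _ | j
    · omega
    rcases i with _ | i <;> rcases x <;> simp [ZCell.tgt, Y.tgt_tgt_lo h]
  src_src_hi {i j} h x := by
    rcases j with _ | j
    · omega
    rcases i with _ | i <;> rcases x <;> simp [ZCell.src, Y.src_src_hi h]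
    rename_i y; conv_lhs => rw [← y.2]
    rw [Y.src_src_hi h, y.2]
  src_tgt_hi {i j} h x := by
    rcases j with _ | j
    · omega
    rcases i with _ | i <;> rcases x <;> simp [ZCell.src, ZCell.tgt, Y.src_tgt_hi h]
    rename_i y; conv_lhs => rw [← y.2]
    rw [Y.src_src_hi h, y.2]
  tgt_src_hi {i j} h x := by
    rcases j with _ | j
    · omega
    rcases i with _ | i <;> rcases x <;> simp [ZCell.src, ZCell.tgt, Y.tgt_src_hi h]
    rename_i y; conv_lhs => rw [← y.2]
    rw [Y.tgt_src_hi h, y.2]
  tgt_tgt_hi {i j} h x := by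
    rcases j with _ | j
    · omega
    rcases i with _ | i <;> rcases x <;> simp [ZCell.tgt, Y.tgt_tgt_hi h]
    rename_i y; conv_lhs => rw [← y.2]
    rw [Y.tgt_src_hi h, y.2]
  finite_dim x := by
    rcases x with _ | _ | _ | y | y | y
    all_goals first
      | exact ⟨1, rfl⟩
      | skip
    obtain ⟨i, hi⟩ := Y.finite_dim y
    rcases i with _ | i
    · exact ⟨0, by simp [ZCell.src, hi]⟩
    · exact ⟨i + 1, by simp [ZCell.src, hi]⟩
  src_comp i x y h := by
    rcases i with _ | i <;> rcases x <;> rcases y <;>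
      simp_all [ZCell.src, ZCell.tgt, ZCell.comp, Y.src_comp, objS]
  tgt_comp i x y h := by
    rcases i with _ | i <;> rcases x <;> rcases y <;>
      simp_all [ZCell.src, ZCell.tgt, ZCell.comp, Y.tgt_comp, objT]
  src_comp_hi {i j} hij x y h := by
    rcases j with _ | j
    · omega
    rcases i with _ | i <;> rcases x <;> rcases y <;>
      simp_all [ZCell.src, ZCell.tgt, ZCell.comp, Y.src_comp_hi hij, objT, objS,
        Y.tgt_src_lo, Y.src_src_lo]
  tgt_comp_hi {i j} hij x y h := by
    rcases j with _ | j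
    · omega
    rcases i with _ | i <;> rcases x <;> rcases y <;>
      simp_all [ZCell.src, ZCell.tgt, ZCell.comp, Y.tgt_comp_hi hij, objT, objS,
        Y.tgt_tgt_lo, Y.src_tgt_lo]
  unit_left i x := by
    rcases i with _ | i <;> rcases x <;>
      simp [ZCell.src, ZCell.comp, Y.unit_left, objS, src_obj]
  unit_right i x := by
    rcases i with _ | i <;> rcases x <;>
      simp [ZCell.tgt, ZCell.comp, Y.unit_right, objT, tgt_obj]
  assoc i x y z h h' := by
    rcases i with _ | i <;> rcases x <;> rcases y <;> rcases z <;>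
      simp_all [ZCell.src, ZCell.tgt, ZCell.comp, Y.assoc, objT, objS, Y.tgt_comp, Y.src_comp]
  interchange {i j} hij x y z w hxy hxz hyw := by
    rcases j with _ | j
    · omega
    rcases x <;> rcases z <;> simp [ZCell.src, ZCell.tgt] at hxz <;>
      rcases y <;> rcases w <;> simp [ZCell.src, ZCell.tgt] at hyw <;>
      rcases i with _ | i <;> simp [ZCell.src, ZCell.tgt] at hxy <;>
      (simp_all [ZCell.comp, Y.interchange hij, objT, objS, src_comp_lo, tgt_comp_lo]) <;>
      exact tgt_eq_lo Y (Nat.succ_pos _) hyw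

end Vale.Agent.P213
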