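import Vale.Agent.P213.Oriental
import Vale.Agent.P213.Collage.Zone

/-!
# P213, collages: vertices and support of the cells of `ori E`

A cell whose `0`-source lies in an upper set is supported in that set, and dually.
-/

open CategoryTheory

noncomputable section

namespace Vale.Agent.P213

variable {E F T : Type} [PartialOrder E] [PartialOrder F] [PartialOrder T]

theorem aug_eq_sum (v : Chain E 0 →₀ ℤ) : aug v = ∑ c ∈ v.support, v c := by
  simp [aug, Finsupp.sum]

/-- A nonnegative `0`-chain of augmentation one is a single point. -/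
theorem exists_single {v : Chain E 0 →₀ ℤ} (h0 : ∀ c, 0 ≤ v c) (h1 : aug v = 1) :
    ∃ c, v = Finsupp.single c 1 := by
  classical
  rw [aug_eq_sum] at h1
  have hne : v.support.Nonempty := by
    rw [Finset.nonempty_iff_ne_empty]; intro h; simp [h] at h1
  obtain ⟨c, hc⟩ := hne
  have hpos : ∀ d ∈ v.support, 1 ≤ v d := fun d hd => by
    have := h0 d; have := Finsupp.mem_support_iff.1 hd; omega
  have hs : v.support = {c} := by
    refine Finset.eq_singleton_iff_unique_mem.2 ⟨hc, fun d hd => ?_⟩
    by_contra hne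
    have hsub : ({c, d} : Finset (Chain E 0)) ⊆ v.support := by
      intro e he
      rcases Finset.mem_insert.1 he with rfl | he
      · exact hc
      · rwa [Finset.mem_singleton.1 he]
    have := Finset.sum_le_sum_of_subset_of_nonneg hsub fun e _ _ => h0 e
    rw [Finset.sum_pair (Ne.symm hne), h1] at this
    have := hpos c hc; have := hpos d hd
    omega
  refine ⟨c, ?_⟩
  rw [hs, Finset.sum_singleton] at h1
  obtain ⟨_, h⟩ := Finsupp.support_eq_singleton.1 hs
  rw [h, h1]

/-- The point of a `0`-chain. -/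
def Chain.pt (c : Chain E 0) : E := c.1 0

theorem chain0_ext {c d : Chain E 0} (h : c.1 0 = d.1 0) : c = d := by
  refine Subtype.ext (funext fun k => ?_)
  rw [show k = 0 from Fin.ext (by omega)]
  exact h

/-- The constant `0`-chain. -/
def Chain.point (v : E) : Chain E 0 :=
  ⟨fun _ => v, fun a b h => absurd h (by omega)⟩

namespace Table

variable (x : Table E)

/-- The vertex which is the `0`-source. -/
def vs : E := (exists_single (x.neg_nonneg 0) x.aug_neg).choose.1 0

/-- The vertex which is the `0`-target. -/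
def vt : E := (exists_single (x.pos_nonneg 0) x.aug_pos).choose.1 0

theorem neg_zero : x.neg 0 = Finsupp.single (Chain.point x.vs) 1 := by
  have h := (exists_single (x.neg_nonneg 0) x.aug_neg).choose_spec
  rw [h]; congr 1; exact chain0_ext rfl

theorem pos_zero : x.pos 0 = Finsupp.single (Chain.point x.vt) 1 := by
  have h := (exists_single (x.pos_nonneg 0) x.aug_pos).choose_spec
  rw [h]; congr 1; exact chain0_ext rfl

theorem vs_eq {v : E} (h : x.neg 0 = Finsupp.single (Chain.point v) 1) : x.vs = v := by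
  rw [x.neg_zero] at h
  have := Finsupp.single_left_injective one_ne_zero h
  exact congrArg (fun c : Chain E 0 => c.1 0) this

theorem vt_eq {v : E} (h : x.pos 0 = Finsupp.single (Chain.point v) 1) : x.vt = v := by
  rw [x.pos_zero] at h
  have := Finsupp.single_left_injective one_ne_zero h
  exact congrArg (fun c : Chain E 0 => c.1 0) this

end Table

/-- The coefficient of a face. -/
theorem bdry_apply {q : ℕ} (v : Chain E (q + 1) →₀ ℤ) (u : Chain E q) :
    bdry q v u = ∑ c ∈ v.support, v c *
      ∑ i : Fin (q + 2), (-1 : ℤ) ^ (i : ℕ) * Finsupp.single (c.face i) (1 : ℤ) u := by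
  conv_lhs => rw [← Finsupp.sum_single v]
  rw [Finsupp.sum, map_sum, Finset.sum_apply']
  refine Finset.sum_congr rfl fun c _ => ?_
  rw [bdry_single, Finsupp.smul_apply, Finset.sum_apply', smul_eq_mul]
  refine congrArg _ (Finset.sum_congr rfl fun i _ => ?_)
  rw [Finsupp.smul_apply, smul_eq_mul]

theorem eq_of_face_last {q : ℕ} {c c' : Chain E (q + 1)} {i : Fin (q + 2)}
    (h : c'.face i = c.face (Fin.last (q + 1))) (hi : i ≠ Fin.last (q + 1)) :
    toLex c'.1 < toLex c.1 := by
  have hk : ∀ k : Fin (q + 1), c'.1 (i.succAbove k) = c.1 k.castSucc := fun k => by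
    have := congrArg (fun d : Chain E q => d.1 k) h
    simpa [Chain.face] using this
  obtain ⟨k, rfl⟩ : ∃ k : Fin (q + 1), k.castSucc = i :=
    ⟨i.castPred hi, Fin.castSucc_castPred _ _⟩
  refine ⟨k.castSucc, fun j hj => ?_, ?_⟩
  · obtain ⟨j, rfl⟩ : ∃ l : Fin (q + 1), l.castSucc = j :=
      ⟨j.castPred (ne_of_lt (hj.trans (Fin.castSucc_lt_last k))), Fin.castSucc_castPred _ _⟩
    have := hk j
    rw [Fin.succAbove_of_castSucc_lt _ _ hj] at this
    exact this
  · show c'.1 k.castSucc < c.1 k.castSucc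
    have := hk k
    rw [Fin.succAbove_of_le_castSucc _ _ le_rfl] at this
    rw [← this]
    exact c'.2 Fin.castSucc_lt_succ

theorem eq_of_face_first {q : ℕ} {c c' : Chain E (q + 1)} {i : Fin (q + 2)}
    (h : c'.face i = c.face 0) (hi : i ≠ 0) :
    toLex (c.1 ∘ Fin.rev) < toLex (c'.1 ∘ Fin.rev) := by
  have hk : ∀ k : Fin (q + 1), c'.1 (i.succAbove k) = c.1 k.succ := fun k => by
    have := congrArg (fun d : Chain E q => d.1 k) h
    simpa [Chain.face] using this
  obtain ⟨k, rfl⟩ : ∃ k : Fin (q + 1), k.succ = i := ⟨i.pred hi, Fin.succ_pred _ _⟩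
  refine ⟨k.succ.rev, fun j hj => ?_, ?_⟩
  · have hj' : k.succ < j.rev := by
      have := Fin.rev_lt_rev.2 hj
      rwa [Fin.rev_rev] at this
    obtain ⟨l, hl⟩ : ∃ l : Fin (q + 1), l.succ = j.rev :=
      ⟨j.rev.pred (ne_of_gt (lt_of_le_of_lt (Fin.zero_le _) hj')), Fin.succ_pred _ _⟩
    show c.1 j.rev = c'.1 j.rev
    have := hk l
    rw [Fin.succAbove_of_le_castSucc _ _ (Fin.le_castSucc_iff.2 (hl ▸ hj')), hl] at this
    exact this.symm
  · show c.1 (k.succ.rev).rev < c'.1 (k.succ.rev).rev
    rw [Fin.rev_rev]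
    have := hk k
    rw [Fin.succAbove_of_castSucc_lt _ _ Fin.castSucc_lt_succ] at this
    rw [← this]
    exact c'.2 Fin.castSucc_lt_succ

/-- A nonnegative chain whose boundary is small off an upper set is supported in it. -/
theorem supp_upper {S : Set E} (hS : IsUpperSet S) {q : ℕ} {z : Chain E (q + 1) →₀ ℤ} (h0 : ∀ c, 0 ≤ z c)
    (h : ∀ u : Chain E q, u.1 0 ∉ S → (-1 : ℤ) ^ (q + 1) * bdry q z u ≤ 0) :
    ∀ c, z c ≠ 0 → c.1 0 ∈ S := by
  classical
  by_contra hne
  push Not at hne
  obtain ⟨d, hd, hd'⟩ := hne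
  let B := z.support.filter fun c => c.1 0 ∉ S
  obtain ⟨m, hm, hmin⟩ :=
    (B.image fun c => toLex c.1).exists_minimal
      ⟨toLex d.1, Finset.mem_image_of_mem _ (by simp [B, hd, hd'])⟩
  obtain ⟨c, hc, rfl⟩ := Finset.mem_image.1 hm
  obtain ⟨hcs, hcS⟩ := Finset.mem_filter.1 hc
  let u := c.face (Fin.last (q + 1))
  have hu : u.1 0 ∉ S := by simpa [u, Chain.face] using hcS
  have key : (-1 : ℤ) ^ (q + 1) * bdry q z u = ∑ c' ∈ z.support,
      z c' * Finsupp.single (c'.face (Fin.last (q + 1))) (1 : ℤ) u := by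
    rw [bdry_apply, Finset.mul_sum]
    refine Finset.sum_congr rfl fun c' hc' => ?_
    rw [Finset.sum_eq_single (Fin.last (q + 1))]
    · rw [Fin.val_last]
      have : (-1 : ℤ) ^ (q + 1) * (-1 : ℤ) ^ (q + 1) = 1 := by
        rw [← mul_pow]; norm_num
      rw [← mul_assoc, mul_comm ((-1 : ℤ) ^ (q + 1)) (z c'), mul_assoc, ← mul_assoc ((-1 : ℤ) ^ _),
        this, one_mul]
    · intro i _ hi
      by_cases e : c'.face i = u
      · exfalso
        have hlt := eq_of_face_last e hi
        have hc'S : c'.1 0 ∉ S := by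
          intro hin
          have h2 : c'.1 (i.succAbove 0) = c.1 0 := by
            have := congrArg (fun d : Chain E q => d.1 0) e
            simpa [Chain.face, u] using this
          exact hcS (h2 ▸ hS (c'.2.monotone (Fin.zero_le _)) hin)
        exact hlt.not_ge (hmin (Finset.mem_image_of_mem _ (by simp [B, hc', hc'S])) hlt.le)
      · simp [Finsupp.single_eq_of_ne (Ne.symm e)]
    · simp
  have hpos : 0 < ∑ c' ∈ z.support,
      z c' * Finsupp.single (c'.face (Fin.last (q + 1))) (1 : ℤ) u := by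
    refine Finset.sum_pos' (fun c' _ => mul_nonneg (h0 c') ?_) ⟨c, hcs, ?_⟩
    · rw [Finsupp.single_apply]; split_ifs <;> simp
    · have := h0 c; have := Finsupp.mem_support_iff.1 hcs
      simp [u]; omega
  exact absurd (key ▸ h u hu) (not_le.2 hpos)

/-- A nonnegative chain whose boundary is small off a lower set is supported in it. -/
theorem supp_lower {S : Set E} (hS : IsLowerSet S) {q : ℕ} {z : Chain E (q + 1) →₀ ℤ}
    (h0 : ∀ c, 0 ≤ z c)
    (h : ∀ u : Chain E q, u.1 (Fin.last q) ∉ S → bdry q z u ≤ 0) :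
    ∀ c, z c ≠ 0 → c.1 (Fin.last (q + 1)) ∈ S := by
  classical
  by_contra hne
  push Not at hne
  obtain ⟨d, hd, hd'⟩ := hne
  let B := z.support.filter fun c => c.1 (Fin.last (q + 1)) ∉ S
  obtain ⟨m, hm, hmax⟩ :=
    (B.image fun c => toLex (c.1 ∘ Fin.rev)).exists_maximal
      ⟨toLex (d.1 ∘ Fin.rev), Finset.mem_image_of_mem _ (by simp [B, hd, hd'])⟩
  obtain ⟨c, hc, rfl⟩ := Finset.mem_image.1 hm
  obtain ⟨hcs, hcS⟩ := Finset.mem_filter.1 hc
  let u := c.face 0
  have hu : u.1 (Fin.last q) ∉ S := by simpa [u, Chain.face] using hcS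
  have key : bdry q z u = ∑ c' ∈ z.support,
      z c' * Finsupp.single (c'.face 0) (1 : ℤ) u := by
    rw [bdry_apply]
    refine Finset.sum_congr rfl fun c' hc' => ?_
    rw [Finset.sum_eq_single (0 : Fin (q + 2))]
    · simp
    · intro i _ hi
      by_cases e : c'.face i = u
      · exfalso
        have hlt := eq_of_face_first e hi
        have hc'S : c'.1 (Fin.last (q + 1)) ∉ S := by
          intro hin
          have h2 : c'.1 (i.succAbove (Fin.last q)) = c.1 (Fin.last (q + 1)) := by
            have := congrArg (fun d : Chain E q => d.1 (Fin.last q)) e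
            simpa [Chain.face, u] using this
          exact hcS (h2 ▸ hS (c'.2.monotone (Fin.le_last _)) hin)
        exact hlt.not_ge (hmax (Finset.mem_image_of_mem _ (by simp [B, hc', hc'S])) hlt.le)
      · simp [Finsupp.single_eq_of_ne (Ne.symm e)]
    · simp
  have hpos : 0 < ∑ c' ∈ z.support, z c' * Finsupp.single (c'.face 0) (1 : ℤ) u := by
    refine Finset.sum_pos' (fun c' _ => mul_nonneg (h0 c') ?_) ⟨c, hcs, ?_⟩
    · rw [Finsupp.single_apply]; split_ifs <;> simp
    · have := h0 c; have := Finsupp.mem_support_iff.1 hcs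
      simp [u]; omega
  exact absurd (key ▸ h u hu) (not_le.2 hpos)

namespace Table

variable (x : Table E)

/-- All entries are supported in an upper set containing the source vertex. -/
theorem mem_upper {S : Set E} (hS : IsUpperSet S) (hv : x.vs ∈ S) :
    ∀ q (c : Chain E q), (x.neg q c ≠ 0 ∨ x.pos q c ≠ 0) → c.1 0 ∈ S := by
  classical
  have hb : ∀ q (w : Chain E (q + 1) →₀ ℤ), (∀ c, w c ≠ 0 → c.1 0 ∈ S) →
      ∀ u : Chain E q, u.1 0 ∉ S → bdry q w u = 0 := by
    intro q w hw u hu
    rw [bdry_apply]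
    refine Finset.sum_eq_zero fun c hc => mul_eq_zero_of_right _ ?_
    refine Finset.sum_eq_zero fun i _ => mul_eq_zero_of_right _ (Finsupp.single_eq_of_ne ?_)
    rintro rfl
    exact hu (hS (c.2.monotone (Fin.zero_le _)) (hw c (Finsupp.mem_support_iff.1 hc)))
  have hneg : ∀ u : Chain E 0, u.1 0 ∉ S → x.neg 0 u = 0 := by
    intro u hu
    rw [x.neg_zero, Finsupp.single_eq_of_ne]
    rintro rfl
    exact hu hv
  intro q
  induction q with
  | zero =>
    have h1 : ∀ c, x.neg 1 c ≠ 0 → c.1 0 ∈ S := by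
      refine supp_upper hS (x.neg_nonneg 1) fun u hu => ?_
      rw [x.bdry_neg, Finsupp.sub_apply, hneg u hu]
      have := x.pos_nonneg 0 u
      simp; omega
    rintro c (hc | hc)
    · by_contra hu; exact hc (hneg c hu)
    · by_contra hu
      have := congrArg (fun v : Chain E 0 →₀ ℤ => v c) (x.bdry_neg 0)
      simp only [Finsupp.sub_apply] at this
      rw [hb 0 _ h1 c hu, hneg c hu] at this
      exact hc (by omega)
  | succ q ih =>
    have hz : ∀ u : Chain E q, u.1 0 ∉ S → x.neg q u = 0 ∧ x.pos q u = 0 := fun u hu =>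
      ⟨by by_contra h; exact hu (ih u (.inl h)), by by_contra h; exact hu (ih u (.inr h))⟩
    rintro c (hc | hc)
    · exact supp_upper hS (x.neg_nonneg _) (fun u hu => by
        rw [x.bdry_neg, Finsupp.sub_apply, (hz u hu).1, (hz u hu).2]; simp) c hc
    · exact supp_upper hS (x.pos_nonneg _) (fun u hu => by
        rw [x.bdry_pos, Finsupp.sub_apply, (hz u hu).1, (hz u hu).2]; simp) c hc

/-- All entries are supported in a lower set containing the target vertex. -/
theorem mem_lower {S : Set E} (hS : IsLowerSet S) (hv : x.vt ∈ S) :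
    ∀ q (c : Chain E q), (x.neg q c ≠ 0 ∨ x.pos q c ≠ 0) → c.1 (Fin.last q) ∈ S := by
  classical
  have hb : ∀ q (w : Chain E (q + 1) →₀ ℤ), (∀ c, w c ≠ 0 → c.1 (Fin.last (q + 1)) ∈ S) →
      ∀ u : Chain E q, u.1 (Fin.last q) ∉ S → bdry q w u = 0 := by
    intro q w hw u hu
    rw [bdry_apply]
    refine Finset.sum_eq_zero fun c hc => mul_eq_zero_of_right _ ?_
    refine Finset.sum_eq_zero fun i _ => mul_eq_zero_of_right _ (Finsupp.single_eq_of_ne ?_)
    rintro rfl
    exact hu (hS (c.2.monotone (Fin.le_last _)) (hw c (Finsupp.mem_support_iff.1 hc)))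
  have hpos : ∀ u : Chain E 0, u.1 (Fin.last 0) ∉ S → x.pos 0 u = 0 := by
    intro u hu
    rw [x.pos_zero, Finsupp.single_eq_of_ne]
    rintro rfl
    exact hu hv
  intro q
  induction q with
  | zero =>
    have h1 : ∀ c, x.neg 1 c ≠ 0 → c.1 (Fin.last 1) ∈ S := by
      refine supp_lower hS (x.neg_nonneg 1) fun u hu => ?_
      rw [x.bdry_neg, Finsupp.sub_apply, hpos u hu]
      have := x.neg_nonneg 0 u
      omega
    rintro c (hc | hc)
    · by_contra hu
      have := congrArg (fun v : Chain E 0 →₀ ℤ => v c) (x.bdry_neg 0)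
      simp only [Finsupp.sub_apply] at this
      rw [hb 0 _ h1 c hu, hpos c hu] at this
      exact hc (by omega)
    · by_contra hu; exact hc (hpos c hu)
  | succ q ih =>
    have hz : ∀ u : Chain E q, u.1 (Fin.last q) ∉ S → x.neg q u = 0 ∧ x.pos q u = 0 := fun u hu =>
      ⟨by by_contra h; exact hu (ih u (.inl h)), by by_contra h; exact hu (ih u (.inr h))⟩
    rintro c (hc | hc)
    · exact supp_lower hS (x.neg_nonneg _) (fun u hu => by
        rw [x.bdry_neg, Finsupp.sub_apply, (hz u hu).1, (hz u hu).2]; simp) c hc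
    · exact supp_lower hS (x.pos_nonneg _) (fun u hu => by
        rw [x.bdry_pos, Finsupp.sub_apply, (hz u hu).1, (hz u hu).2]; simp) c hc

/-- The source vertex lies below the target vertex. -/
theorem vs_le_vt : x.vs ≤ x.vt := by
  have := x.mem_upper (isUpperSet_Ici x.vs) le_rfl 0 (Chain.point x.vt)
    (.inr (by rw [x.pos_zero]; simp))
  exact this

/-- The vertices of the supporting chains lie between the two end vertices. -/
theorem mem_Icc {q : ℕ} (c : Chain E q) (h : x.neg q c ≠ 0 ∨ x.pos q c ≠ 0) (k : Fin (q + 1)) :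
    x.vs ≤ c.1 k ∧ c.1 k ≤ x.vt :=
  ⟨(x.mem_upper (isUpperSet_Ici x.vs) le_rfl q c h).trans (c.2.monotone (Fin.zero_le k)),
    (c.2.monotone (Fin.le_last k)).trans (x.mem_lower (isLowerSet_Iic x.vt) le_rfl q c h)⟩

/-- The image of a cell depends only on the map between its end vertices. -/
theorem push_congr (f g : E →o F) (h : ∀ e, x.vs ≤ e → e ≤ x.vt → f e = g e) :
    x.push f = x.push g := by
  classical
  refine ext' fun q => ?_
  have key : ∀ v : Chain E q →₀ ℤ, (∀ c, v c ≠ 0 → x.neg q c ≠ 0 ∨ x.pos q c ≠ 0) →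
      pushMap f q v = pushMap g q v := by
    intro v hv
    simp only [pushMap, Finsupp.liftAddHom_apply]
    refine Finsupp.sum_congr fun c hc => ?_
    have e : f ∘ c.1 = g ∘ c.1 := funext fun k => by
      obtain ⟨h1, h2⟩ := x.mem_Icc c (hv c (Finsupp.mem_support_iff.1 hc)) k
      exact h _ h1 h2
    have e2 : c.push f = c.push g := by simp only [Chain.push, e]
    show v c • c.push f = v c • c.push g
    rw [e2]
  exact ⟨key _ fun c hc => .inl hc, key _ fun c hc => .inr hc⟩

theorem vs_src (i : ℕ) : (x.src i).vs = x.vs :=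
  vs_eq _ (by rw [← x.neg_zero]; simp [src])

theorem vt_tgt (i : ℕ) : (x.tgt i).vt = x.vt :=
  vt_eq _ (by rw [← x.pos_zero]; simp [tgt])

theorem vt_src_zero : (x.src 0).vt = x.vs :=
  vt_eq _ (by rw [← x.neg_zero]; simp [src])

theorem vs_tgt_zero : (x.tgt 0).vs = x.vt :=
  vs_eq _ (by rw [← x.pos_zero]; simp [tgt])

theorem vt_src_succ (i : ℕ) : (x.src (i + 1)).vt = x.vt :=
  vt_eq _ (by rw [← x.pos_zero]; simp [src])

theorem vs_tgt_succ (i : ℕ) : (x.tgt (i + 1)).vs = x.vs :=
  vs_eq _ (by rw [← x.neg_zero]; simp [tgt])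

theorem vs_comp {i : ℕ} {x y : Table E} (h : x.tgt i = y.src i) :
    (comp i x y).vs = x.vs :=
  vs_eq _ (by rw [← x.neg_zero, (comp_of_eq h 0).1]; simp)

theorem vt_comp_zero {x y : Table E} (h : x.tgt 0 = y.src 0) :
    (comp 0 x y).vt = y.vt :=
  vt_eq _ (by rw [← y.pos_zero, (comp_of_eq h 0).2]; simp)

theorem vt_comp_succ {i : ℕ} {x y : Table E} (h : x.tgt (i + 1) = y.src (i + 1)) :
    (comp (i + 1) x y).vt = x.vt :=
  vt_eq _ (by rw [← x.pos_zero, (comp_of_eq h 0).2]; simp)

theorem vt_eq_vs {x y : Table E} (h : x.tgt 0 = y.src 0) : x.vt = y.vs := by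
  rw [← x.vs_tgt_zero, h, y.vs_src]

/-- The cell of a point. -/
def point (v : E) : Table E where
  neg q := match q with
    | 0 => Finsupp.single (Chain.point v) 1
    | _ + 1 => 0
  pos q := match q with
    | 0 => Finsupp.single (Chain.point v) 1
    | _ + 1 => 0
  neg_nonneg q c := by
    rcases q with _ | q
    · classical simp only; rw [Finsupp.single_apply]; split_ifs <;> simp
    · simp
  pos_nonneg q c := by
    rcases q with _ | q
    · classical simp only; rw [Finsupp.single_apply]; split_ifs <;> simp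
    · simp
  bounded := ⟨1, fun q hq => by rcases q with _ | q <;> [omega; simp]⟩
  aug_neg := by simp [aug]
  aug_pos := by simp [aug]
  bdry_neg q := by rcases q with _ | q <;> simp
  bdry_pos q := by rcases q with _ | q <;> simp

theorem src_zero_eq : x.src 0 = point x.vs := ext' fun q => by
  rcases q with _ | q <;> simp [src, point, x.neg_zero]

theorem tgt_zero_eq : x.tgt 0 = point x.vt := ext' fun q => by
  rcases q with _ | q <;> simp [tgt, point, x.pos_zero]

/-- The cell of a pair `v < w`. -/
def edge {v w : E} (h : v < w) : Table E where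
  neg q := match q with
    | 0 => Finsupp.single (Chain.point v) 1
    | 1 => Finsupp.single ⟨![v, w], Fin.strictMono_iff_lt_succ.2 (by simpa using h)⟩ 1
    | _ + 2 => 0
  pos q := match q with
    | 0 => Finsupp.single (Chain.point w) 1
    | 1 => Finsupp.single ⟨![v, w], Fin.strictMono_iff_lt_succ.2 (by simpa using h)⟩ 1
    | _ + 2 => 0
  neg_nonneg q c := by
    rcases q with _ | _ | q
    · classical simp only; rw [Finsupp.single_apply]; split_ifs <;> simp
    · classical simp only; rw [Finsupp.single_apply]; split_ifs <;> simp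
    · simp
  pos_nonneg q c := by
    rcases q with _ | _ | q
    · classical simp only; rw [Finsupp.single_apply]; split_ifs <;> simp
    · classical simp only; rw [Finsupp.single_apply]; split_ifs <;> simp
    · simp
  bounded := ⟨2, fun q hq => by rcases q with _ | _ | q <;> [omega; omega; simp]⟩
  aug_neg := by simp [aug]
  aug_pos := by simp [aug]
  bdry_neg q := by
    rcases q with _ | _ | q <;> simp [bdry_single, Fin.sum_univ_two]
    rw [sub_eq_add_neg]
    rw [show Chain.face (⟨![v, w], _⟩ : Chain E 1) 0 = Chain.point w from chain0_ext rfl,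
      show Chain.face (⟨![v, w], _⟩ : Chain E 1) 1 = Chain.point v from chain0_ext rfl]
  bdry_pos q := by
    rcases q with _ | _ | q <;> simp [bdry_single, Fin.sum_univ_two]
    rw [sub_eq_add_neg]
    rw [show Chain.face (⟨![v, w], _⟩ : Chain E 1) 0 = Chain.point w from chain0_ext rfl,
      show Chain.face (⟨![v, w], _⟩ : Chain E 1) 1 = Chain.point v from chain0_ext rfl]

end Table

open Table in
/-- The functor to a partial order of a monotone map on vertices. -/
def vertMap (f : E →o T) : ori E ⟶ ordCat T where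
  toFun x := ⟨(f x.vs, f x.vt), f.monotone x.vs_le_vt⟩
  map_src i x := by
    rcases i with _ | i <;> refine Subtype.ext (Prod.ext ?_ ?_)
    · exact congrArg f (x.vs_src 0)
    · exact congrArg f x.vt_src_zero
    · exact congrArg f (x.vs_src _)
    · exact congrArg f (x.vt_src_succ i)
  map_tgt i x := by
    rcases i with _ | i <;> refine Subtype.ext (Prod.ext ?_ ?_)
    · exact congrArg f x.vs_tgt_zero
    · exact congrArg f (x.vt_tgt 0)
    · exact congrArg f (x.vs_tgt_succ i)
    · exact congrArg f (x.vt_tgt _)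
  map_comp i x y h := by
    rcases i with _ | i
    · refine Subtype.ext ((Prod.ext ?_ ?_).trans (OrdCat.comp_zero (congrArg f (vt_eq_vs h))).symm)
      · exact congrArg f (vs_comp h)
      · exact congrArg f (vt_comp_zero h)
    · refine Subtype.ext (Prod.ext ?_ ?_)
      · exact congrArg f (vs_comp h)
      · exact congrArg f (vt_comp_succ h)

/-- A functor to a partial order is determined by its values on vertices. -/
theorem ordCat_val {Φ : ori E ⟶ ordCat T} (x : Table E) :
    (Φ.toFun x).1 = ((Φ.toFun (Table.point x.vs)).1.1, (Φ.toFun (Table.point x.vt)).1.1) := by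
  rw [← x.src_zero_eq, ← x.tgt_zero_eq]
  refine Prod.ext ?_ ?_
  · exact (congrArg (fun p => p.1.1) (Φ.map_src 0 x)).symm
  · exact (congrArg (fun p => p.1.1) (Φ.map_tgt 0 x)).symm

/-- A functor to a partial order is monotone on vertices. -/
theorem ordCat_mono {Φ : ori E ⟶ ordCat T} {v w : E} (h : v ≤ w) :
    (Φ.toFun (Table.point v)).1.1 ≤ (Φ.toFun (Table.point w)).1.1 := by
  rcases h.lt_or_eq with h | rfl
  · have := (Φ.toFun (Table.edge h)).2
    rw [ordCat_val, Table.vs_eq _ (v := v) rfl, Table.vt_eq _ (v := w) rfl] at this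
    exact this
  · exact le_rfl

end Vale.Agent.P213
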