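import Vale.Agent.P213.Cat.Adj
import Vale.Agent.P213.Defs
import Vale.Agent.P213.Collage.Hat
import Vale.Agent.P213.Collage.Support

/-!
# P213, collages: convex full parts of `catO n E`
-/

open CategoryTheory Limits Opposite

noncomputable section

namespace Vale.Agent.P213

variable {n : ℕ∞} {E T : Type} [PartialOrder E] [PartialOrder T]

/-- A simplex of the nerve of a partial order as a monotone map. -/
def monoOf {m : SimplexCategory} (s : (CategoryTheory.nerve E).obj (op m)) :
    Fin (m.len + 1) →o E :=
  ⟨fun k => s.obj k, fun _ _ h => leOfHom (s.map (homOfLE h))⟩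

/-- A monotone map as a simplex of the nerve. -/
def ofMono {m : SimplexCategory} (f : Fin (m.len + 1) →o E) :
    (CategoryTheory.nerve E).obj (op m) :=
  f.monotone.functor

theorem simplex_ext {m : SimplexCategory} {s t : (CategoryTheory.nerve E).obj (op m)}
    (h : ∀ k, monoOf s k = monoOf t k) : s = t :=
  CategoryTheory.Functor.ext h fun _ _ _ => Subsingleton.elim _ _

theorem monoOf_map {a b : SimplexCategory} (φ : a ⟶ b)
    (s : (CategoryTheory.nerve E).obj (op b)) (k : Fin (a.len + 1)) :
    monoOf ((CategoryTheory.nerve E).map φ.op s) k = monoOf s (φ.toOrderHom k) := rfl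

theorem map_ofMono {a b : SimplexCategory} (φ : a ⟶ b) (f : Fin (b.len + 1) →o E) :
    (CategoryTheory.nerve E).map φ.op (ofMono f) = ofMono (f.comp φ.toOrderHom) :=
  simplex_ext fun _ => rfl

theorem nerveMap_simplex {F : Type} [PartialOrder F] (f : E →o F) {m : SimplexCategory}
    (s : (CategoryTheory.nerve E).obj (op m)) :
    (CategoryTheory.nerveMap f.monotone.functor).app (op m) s = ofMono (f.comp (monoOf s)) :=
  simplex_ext fun _ => rfl

theorem Table.vs_push {F : Type} [PartialOrder F] (f : E →o F) (x : Table E) :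
    (x.push f).vs = f x.vs := by
  refine Table.vs_eq _ ?_
  show pushMap f 0 (x.neg 0) = _
  rw [x.neg_zero, pushMap_single, Chain.push,
    dif_pos (show StrictMono (f ∘ (Chain.point _).1) from fun a b h => absurd h (by omega)),
    one_smul]
  congr 1

theorem Table.vt_push {F : Type} [PartialOrder F] (f : E →o F) (x : Table E) :
    (x.push f).vt = f x.vt := by
  refine Table.vt_eq _ ?_
  show pushMap f 0 (x.pos 0) = _
  rw [x.pos_zero, pushMap_single, Chain.push,
    dif_pos (show StrictMono (f ∘ (Chain.point _).1) from fun a b h => absurd h (by omega)),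
    one_smul]
  congr 1

theorem vertMap_oriMap {F : Type} [PartialOrder F] (f : E →o F) (κ : F →o T) :
    oriMap f ≫ vertMap κ = vertMap (κ.comp f) := by
  refine OmegaCat.Hom.ext (funext fun (x : Table E) => Subtype.ext ?_)
  show (κ (x.push f).vs, κ (x.push f).vt) = (κ (f x.vs), κ (f x.vt))
  rw [Table.vs_push, Table.vt_push]

/-- The inclusion of a simplex. -/
def catι (n : ℕ∞) {m : SimplexCategory} (s : (CategoryTheory.nerve E).obj (op m)) :
    ori (Fin (m.len + 1)) ⟶ (catO n E).obj :=
  simplexι n m s

theorem catι_natural (n : ℕ∞) {a b : SimplexCategory} (φ : a ⟶ b)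
    (s : (CategoryTheory.nerve E).obj (op b)) :
    oriMap φ.toOrderHom ≫ catι n s = catι n ((CategoryTheory.nerve E).map φ.op s) :=
  simplexι_natural n φ s

/-- Compatible families give functors out of `catO n E`. -/
def catODesc {X : OmegaCat} (hX : OmegaCat.dimLE n X)
    (F : ∀ m : SimplexCategory, (CategoryTheory.nerve E).obj (op m) → (ori (Fin (m.len + 1)) ⟶ X))
    (hF : ∀ {a b : SimplexCategory} (φ : a ⟶ b) (s : (CategoryTheory.nerve E).obj (op b)),
      F a ((CategoryTheory.nerve E).map φ.op s) = oriMap φ.toOrderHom ≫ F b s) :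
    (catO n E).obj ⟶ X :=
  ((cEquiv n (CategoryTheory.nerve E) ⟨X, hX⟩).symm
    { app := fun m => ↾fun s => ULift.up (F m.unop s)
      naturality := fun a b f => by
        ext s
        exact congrArg ULift.up (hF f.unop s) }).hom

theorem catι_desc {X : OmegaCat} (hX : OmegaCat.dimLE n X)
    (F : ∀ m : SimplexCategory, (CategoryTheory.nerve E).obj (op m) → (ori (Fin (m.len + 1)) ⟶ X))
    (hF : ∀ {a b : SimplexCategory} (φ : a ⟶ b) (s : (CategoryTheory.nerve E).obj (op b)),
      F a ((CategoryTheory.nerve E).map φ.op s) = oriMap φ.toOrderHom ≫ F b s)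
    {m : SimplexCategory} (s : (CategoryTheory.nerve E).obj (op m)) :
    catι n s ≫ catODesc hX F hF = F m s := by
  have h := (cEquiv n (CategoryTheory.nerve E) ⟨X, hX⟩).apply_symm_apply
  exact congrArg ULift.down (congrArg (fun η => η.app (op m) s) (h _))

theorem grade_compat (κ : E →o T) {a b : SimplexCategory} (φ : a ⟶ b)
    (s : (CategoryTheory.nerve E).obj (op b)) :
    vertMap (κ.comp (monoOf ((CategoryTheory.nerve E).map φ.op s))) =
      oriMap φ.toOrderHom ≫ vertMap (κ.comp (monoOf s)) :=
  (vertMap_oriMap φ.toOrderHom (κ.comp (monoOf s))).symm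

/-- The functor of a monotone map to `ordCat T`. -/
def grade (n : ℕ∞) (hn : 1 ≤ n) (κ : E →o T) : (catO n E).obj ⟶ ordCat T :=
  catODesc (ordCat_dimLE n hn T) (fun m s => vertMap (κ.comp (monoOf (m := m) s)))
    (grade_compat κ)

theorem simplex_grade (hn : 1 ≤ n) (κ : E →o T) {m : SimplexCategory}
    (s : (CategoryTheory.nerve E).obj (op m)) :
    catι n s ≫ grade n hn κ = vertMap (κ.comp (monoOf s)) :=
  catι_desc (ordCat_dimLE n hn T) _ (grade_compat κ) s

/-- Functors out of `catO n E` are determined on simplices. -/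
theorem catO_hom_ext {X : OmegaCat} (hX : OmegaCat.dimLE n X) {u v : (catO n E).obj ⟶ X}
    (h : ∀ m (s : (CategoryTheory.nerve E).obj (op m)), catι n s ≫ u = catι n s ≫ v) :
    u = v := by
  have := cN_hom_ext n (K := CategoryTheory.nerve E) (X := ⟨X, hX⟩)
    (F := ObjectProperty.homMk u) (G := ObjectProperty.homMk v) h
  exact congrArg InducedCategory.Hom.hom this

theorem catOMap_simplex {F : Type} [PartialOrder F] (f : E →o F) {m : SimplexCategory}
    (s : (CategoryTheory.nerve E).obj (op m)) :
    catι n s ≫ (catOMap n f).hom = catι n (ofMono (f.comp (monoOf s))) :=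
  (simplexι_map n _ m s).trans (congrArg (catι n) (nerveMap_simplex f s))

theorem catOMap_grade (hn : 1 ≤ n) {F : Type} [PartialOrder F] (f : E →o F) (κ : F →o T) :
    (catOMap n f).hom ≫ grade n hn κ = grade n hn (κ.comp f) := by
  refine catO_hom_ext (ordCat_dimLE n hn T) fun m s => ?_
  rw [← Category.assoc, catOMap_simplex, simplex_grade, simplex_grade]
  rfl

theorem grade_ordMap (hn : 1 ≤ n) {U : Type} [PartialOrder U] (κ : E →o T) (g : T →o U) :
    grade n hn κ ≫ ordMap g = grade n hn (g.comp κ) := by
  refine catO_hom_ext (ordCat_dimLE n hn U) fun m s => ?_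
  rw [← Category.assoc, simplex_grade, simplex_grade]
  rfl

/-- Clamping between two vertices. -/
def clampMap {L : Type} [LinearOrder L] (a b : L) : L →o L :=
  ⟨fun k => max a (min b k), fun _ _ h => max_le_max le_rfl (min_le_min le_rfl h)⟩

section part

variable {S : Set E} {κ : E →o Fin 3} (hS : ∀ e, e ∈ S ↔ κ e = 1) {m : SimplexCategory}

include hS

theorem clamp_mem (c : Fin (m.len + 1) →o E) (x : Table (Fin (m.len + 1)))
    (h : Mid (vertMap (κ.comp c)) x) (k : Fin (m.len + 1)) :
    c (clampMap x.vs x.vt k) ∈ S := by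
  have h1 : κ (c x.vs) = 1 := congrArg Prod.fst h
  have h2 : κ (c x.vt) = 1 := congrArg Prod.snd h
  have e1 : x.vs ≤ clampMap x.vs x.vt k := le_max_left _ _
  have e2 : clampMap x.vs x.vt k ≤ x.vt := max_le x.vs_le_vt (min_le_left _ _)
  rw [hS]
  exact le_antisymm (h2 ▸ κ.monotone (c.monotone e2)) (h1 ▸ κ.monotone (c.monotone e1))

/-- The value on a middle cell of a simplex. -/
def partVal (c : Fin (m.len + 1) →o E) (x : Table (Fin (m.len + 1)))
    (h : Mid (vertMap (κ.comp c)) x) : (catO n S).obj.Cell :=
  (catι n (ofMono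
    (⟨fun k => ⟨c (clampMap x.vs x.vt k), clamp_mem hS c x h k⟩,
      fun _ _ hk => c.monotone ((clampMap x.vs x.vt).monotone hk)⟩ :
      Fin (m.len + 1) →o S))).toFun x

/-- Any simplex of `S` agreeing between the end vertices gives the same value. -/
theorem partVal_eq (c : Fin (m.len + 1) →o E) (x : Table (Fin (m.len + 1)))
    (h : Mid (vertMap (κ.comp c)) x) (d : Fin (m.len + 1) →o S)
    (hd : ∀ k, x.vs ≤ k → k ≤ x.vt → (d k : E) = c k) :
    partVal (n := n) hS c x h = (catι n (ofMono d)).toFun x := by
  let r : m ⟶ m := SimplexCategory.Hom.mk (clampMap x.vs x.vt)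
  have hr : x.push r.toOrderHom = x := by
    have : x.push r.toOrderHom = x.push OrderHom.id := x.push_congr _ _ fun e h1 h2 => by
      show max x.vs (min x.vt e) = e
      rw [min_eq_right h2, max_eq_right h1]
    exact this.trans (congrArg (fun u : ori _ ⟶ ori _ => u.toFun x) oriMap_id)
  have e : ofMono (⟨fun k => ⟨c (clampMap x.vs x.vt k), clamp_mem hS c x h k⟩,
      fun _ _ hk => c.monotone ((clampMap x.vs x.vt).monotone hk)⟩ : Fin (m.len + 1) →o S) =
      (CategoryTheory.nerve S).map r.op (ofMono d) := by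
    refine simplex_ext fun k => Subtype.ext ?_
    exact (hd (clampMap x.vs x.vt k) (le_max_left _ _)
      (max_le x.vs_le_vt (min_le_left _ _))).symm
  rw [partVal, e, ← catι_natural]
  show (catι n (ofMono d)).toFun (x.push r.toOrderHom) = _
  rw [hr]

/-- The functor on the middle part of a simplex. -/
def partHom (n : ℕ∞) (c : Fin (m.len + 1) →o E) :
    PartHom (vertMap (κ.comp c)) (catO n S).obj where
  toFun := partVal hS c
  map_src i x h := by
    let d : Fin (m.len + 1) →o S := ⟨fun k => ⟨c (clampMap x.vs x.vt k), clamp_mem hS c x h k⟩,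
      fun _ _ hk => c.monotone ((clampMap x.vs x.vt).monotone hk)⟩
    refine (partVal_eq hS c (x.src i) (h.src i) d fun k h1 h2 => congrArg c ?_).trans
      ((catι n (ofMono d)).map_src i x)
    have a1 : x.vs ≤ k := x.vs_src i ▸ h1
    have a2 : k ≤ x.vt := by
      rcases i with _ | i
      · exact (x.vt_src_zero ▸ h2).trans x.vs_le_vt
      · exact x.vt_src_succ i ▸ h2
    show max x.vs (min x.vt k) = k
    rw [min_eq_right a2, max_eq_right a1]
  map_tgt i x h := by
    let d : Fin (m.len + 1) →o S := ⟨fun k => ⟨c (clampMap x.vs x.vt k), clamp_mem hS c x h k⟩,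
      fun _ _ hk => c.monotone ((clampMap x.vs x.vt).monotone hk)⟩
    refine (partVal_eq hS c (x.tgt i) (h.tgt i) d fun k h1 h2 => congrArg c ?_).trans
      ((catι n (ofMono d)).map_tgt i x)
    have a2 : k ≤ x.vt := x.vt_tgt i ▸ h2
    have a1 : x.vs ≤ k := by
      rcases i with _ | i
      · exact x.vs_le_vt.trans (x.vs_tgt_zero ▸ h1)
      · exact x.vs_tgt_succ i ▸ h1
    show max x.vs (min x.vt k) = k
    rw [min_eq_right a2, max_eq_right a1]
  map_comp i (x : Table (Fin (m.len + 1))) (y : Table (Fin (m.len + 1))) hx hy e := by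
    replace e : x.tgt i = y.src i := e
    let z : Table (Fin (m.len + 1)) := Table.comp i x y
    have hz : Mid (vertMap (κ.comp c)) z := hx.comp hy i e
    let d : Fin (m.len + 1) →o S := ⟨fun k => ⟨c (clampMap z.vs z.vt k), clamp_mem hS c z hz k⟩,
      fun _ _ hk => c.monotone ((clampMap z.vs z.vt).monotone hk)⟩
    have hs : z.vs = x.vs := Table.vs_comp e
    have ht : z.vt = y.vt ∧ x.vt ≤ z.vt ∧ z.vs ≤ y.vs := by
      rcases i with _ | i
      · have e' := Table.vt_eq_vs e
        refine ⟨Table.vt_comp_zero e, ?_, ?_⟩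
        · rw [show z.vt = y.vt from Table.vt_comp_zero e, e']; exact y.vs_le_vt
        · rw [hs, ← e']; exact x.vs_le_vt
      · have h1 : x.vt = y.vt := by
          rw [← x.vt_tgt (i + 1), e, y.vt_src_succ]
        have h2 : x.vs = y.vs := by
          rw [← x.vs_tgt_succ i, e, y.vs_src]
        have h3 : z.vt = x.vt := Table.vt_comp_succ e
        exact ⟨h3.trans h1, h3.symm.le, by rw [hs, h2]⟩
    have key : ∀ k, z.vs ≤ k → k ≤ z.vt → (d k : E) = c k := fun k h1 h2 => by
      show c (max z.vs (min z.vt k)) = c k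
      rw [min_eq_right h2, max_eq_right h1]
    refine (partVal_eq hS c z hz d key).trans (((catι n (ofMono d)).map_comp i x y e).trans ?_)
    rw [← partVal_eq hS c x hx d fun k h1 h2 => key k (hs ▸ h1) (h2.trans ht.2.1),
      ← partVal_eq hS c y hy d fun k h1 h2 => key k (ht.2.2.trans h1) (ht.1 ▸ h2)]

theorem partCollapse_compat {a b : SimplexCategory} (φ : a ⟶ b)
    (s : (CategoryTheory.nerve E).obj (op b)) :
    (partHom hS n (monoOf ((CategoryTheory.nerve E).map φ.op s))).hat =
      oriMap φ.toOrderHom ≫ (partHom hS n (monoOf s)).hat := by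
  rw [← PartHom.pull_hat]
  have hdeg : vertMap (κ.comp (monoOf ((CategoryTheory.nerve E).map φ.op s))) =
      oriMap φ.toOrderHom ≫ vertMap (κ.comp (monoOf s)) :=
    (vertMap_oriMap φ.toOrderHom (κ.comp (monoOf s))).symm
  refine PartHom.hat_congr hdeg _ _ fun (x : Table (Fin (a.len + 1))) hx => ?_
  have hy : Mid (vertMap (κ.comp (monoOf s))) (x.push φ.toOrderHom) := hx.congr hdeg
  let y := x.push φ.toOrderHom
  let d : Fin (b.len + 1) →o S :=
    ⟨fun k => ⟨monoOf s (clampMap y.vs y.vt k), clamp_mem hS (monoOf s) y hy k⟩,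
      fun _ _ hk => (monoOf s).monotone ((clampMap y.vs y.vt).monotone hk)⟩
  refine (partVal_eq hS _ x hx (d.comp φ.toOrderHom) fun k h1 h2 => ?_).trans ?_
  · show monoOf s (max y.vs (min y.vt (φ.toOrderHom k))) = monoOf s (φ.toOrderHom k)
    rw [show y.vs = _ from Table.vs_push φ.toOrderHom x,
      show y.vt = _ from Table.vt_push φ.toOrderHom x,
      min_eq_right (φ.toOrderHom.monotone h2),
      max_eq_right (φ.toOrderHom.monotone h1)]
  · rw [← map_ofMono, ← catι_natural]
    rfl

/-- The functor from `catO n E` to the collage of its middle part. -/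
def partCollapse (hn : 1 ≤ n) : (catO n E).obj ⟶ Zone (catO n S).obj :=
  catODesc (Zone.dimLE hn (catO n S).property)
    (fun m s => (partHom hS n (monoOf (m := m) s)).hat) (partCollapse_compat hS)

theorem simplex_partCollapse (hn : 1 ≤ n) (s : (CategoryTheory.nerve E).obj (op m)) :
    catι n s ≫ partCollapse hS hn = (partHom hS n (monoOf s)).hat :=
  catι_desc (Zone.dimLE hn (catO n S).property) _ (partCollapse_compat hS) s

omit m in
/-- A convex set gives the full middle part. -/
theorem fullBij_catO (hn : 1 ≤ n) : FullBij (catOMap n (setVal S)) (grade n hn κ) := by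
  let k := (catOMap n (setVal S)).hom
  let r : (catO n E).obj ⟶ Zone (catO n S).obj := partCollapse hS hn
  have rdeg : r ≫ zdeg _ = grade n hn κ := by
    refine catO_hom_ext (ordCat_dimLE n hn _) fun m s => ?_
    rw [← Category.assoc, simplex_partCollapse, PartHom.hat_zdeg, simplex_grade]
  have kr : k ≫ r = (PartHom.incl (k ≫ grade n hn κ)).hat := by
    refine catO_hom_ext (Zone.dimLE hn (catO n S).property) fun m s => ?_
    have hk : catι n s ≫ k = catι n (ofMono ((setVal S).comp (monoOf s))) :=
      catOMap_simplex (setVal S) s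
    rw [← Category.assoc, hk, simplex_partCollapse, ← PartHom.pull_hat]
    have hdeg : vertMap (κ.comp (monoOf (ofMono ((setVal S).comp (monoOf s))))) =
        catι n s ≫ k ≫ grade n hn κ := by
      rw [← Category.assoc, hk, simplex_grade]
    refine PartHom.hat_congr hdeg _ _ fun x hx => ?_
    refine (partVal_eq hS _ x hx (monoOf s) fun k _ _ => rfl).trans ?_
    exact congrArg (fun t => (catι n t).toFun x) (simplex_ext fun _ => rfl)
  have back : r ≫ ((zval (catO n S).obj).postcomp k).hat = (PartHom.incl (grade n hn κ)).hat := by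
    refine catO_hom_ext (Zone.dimLE hn (catO n E).property) fun m s => ?_
    rw [← Category.assoc, simplex_partCollapse, ← PartHom.pull_hat, ← PartHom.pull_hat]
    have hdeg : (partHom hS n (monoOf s)).hat ≫ zdeg _ = catι n s ≫ grade n hn κ := by
      rw [PartHom.hat_zdeg, simplex_grade]
    refine PartHom.hat_congr hdeg _ _ fun x hx => ?_
    have hm : Mid (vertMap (κ.comp (monoOf s))) x := hx.congr (PartHom.hat_zdeg _)
    have e : (partHom hS n (monoOf s)).hat.toFun x = .cell (partVal hS (monoOf s) x hm) :=
      (partHom hS n (monoOf s)).ext0_cell x hm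
    refine (congrArg k.toFun (((zval _).toFun_congr e _).trans (zval_cell _ _))).trans ?_
    let c := monoOf s
    let d : Fin (m.len + 1) →o S := ⟨fun j => ⟨c (clampMap x.vs x.vt j), clamp_mem hS c x hm j⟩,
      fun _ _ hk => c.monotone ((clampMap x.vs x.vt).monotone hk)⟩
    show (catι n (ofMono d) ≫ k).toFun x = (catι n s).toFun x
    rw [show catι n (ofMono d) ≫ k = _ from catOMap_simplex (setVal S) (ofMono d)]
    let q : m ⟶ m := SimplexCategory.Hom.mk (clampMap x.vs x.vt)
    have hq : x.push q.toOrderHom = x := by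
      have : x.push q.toOrderHom = x.push OrderHom.id := x.push_congr _ _ fun e h1 h2 => by
        show max x.vs (min x.vt e) = e
        rw [min_eq_right h2, max_eq_right h1]
      exact this.trans (congrArg (fun u : ori _ ⟶ ori _ => u.toFun x) oriMap_id)
    rw [show ofMono ((setVal S).comp (monoOf (ofMono d))) = (CategoryTheory.nerve E).map q.op s
      from simplex_ext fun _ => rfl, ← catι_natural]
    show (catι n s).toFun (x.push q.toOrderHom) = _
    rw [hq]
  intro e he
  have hre : Mid (zdeg _) (r.toFun e) := he.congr rdeg.symm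
  obtain ⟨a, ha⟩ := mid_zdeg hre
  have hka : k.toFun a = e := by
    have := congrArg (fun u : (catO n E).obj ⟶ Zone (catO n E).obj => u.toFun e) back
    change ((zval _).postcomp k).ext0 (r.toFun e) = (PartHom.incl (grade n hn κ)).ext0 e at this
    rw [PartHom.ext0_cell _ _ hre, PartHom.ext0_cell _ _ he] at this
    injection this with this
    exact ((congrArg k.toFun (((zval _).toFun_congr ha _).trans (zval_cell _ _))).symm).trans this
  refine ⟨a, ⟨by show Mid (grade n hn κ) (k.toFun a); rwa [hka], hka⟩, fun a' ha' => ?_⟩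
  have := congrArg (fun u : (catO n S).obj ⟶ Zone (catO n S).obj => u.toFun a') kr
  change r.toFun (k.toFun a') = (PartHom.incl (k ≫ grade n hn κ)).ext0 a' at this
  rw [show k.toFun a' = e from ha'.2, ha, PartHom.ext0_cell _ _ ha'.1] at this
  injection this with this
  exact this.symm

end part

end Vale.Agent.P213
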